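import Vale.Agent.Lib.P130H.B.Inter

/-! P130H part B: the defect vanishes on the range of 1 - U. -/

namespace Vale.Agent.P130H

open MeasureTheory Filter Topology
open scoped ENNReal ComplexConjugate

variable {H : Type} [NormedAddCommGroup H] [InnerProductSpace ℂ H]

theorem Defect_norm_sq (g : K2) : ‖g‖ ^ 2 = ∫ x, ‖(g : Ci → ℂ) x‖ ^ 2 ∂haar := by
  rw [@norm_sq_eq_re_inner ℂ, L2.inner_def]
  have h1 : ∀ x, inner ℂ ((g : Ci → ℂ) x) ((g : Ci → ℂ) x) =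
      ((‖(g : Ci → ℂ) x‖ ^ 2 : ℝ) : ℂ) := by
    intro x
    rw [inner_self_eq_norm_sq_to_K]
    push_cast
    rfl
  simp only [h1]
  rw [integral_complex_ofReal]
  exact Complex.ofReal_re _

theorem Defect_integrable (g : K2) : Integrable (fun x => ‖(g : Ci → ℂ) x‖ ^ 2) haar :=
  (Lp.memLp g).integrable_norm_pow (by norm_num)

theorem Defect_off {t : ℝ} (x : Ci) (hx : x ∉ Th t) :
    ‖(1 : ℂ) - fourier 1 x‖ ≤ 2 * Real.pi * t := by
  obtain ⟨s, hs, hs2⟩ : ∃ s : ℝ, (s : Ci) = x ∧ |s| ≤ t := by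
    obtain ⟨s, hs0, hs1, hsx⟩ : ∃ s : ℝ, 0 ≤ s ∧ s < 1 ∧ (s : Ci) = x := by
      have : Fact ((0 : ℝ) < 1) := ⟨one_pos⟩
      refine ⟨AddCircle.equivIco 1 0 x, (AddCircle.equivIco 1 0 x).2.1, ?_, ?_⟩
      · have := (AddCircle.equivIco 1 0 x).2.2
        simpa using this
      · exact (AddCircle.equivIco 1 0).symm_apply_apply x
    by_cases h1 : t ≤ s
    · have h2 : 1 - t < s := by
        by_contra h3
        exact hx ⟨s, ⟨h1, not_lt.1 h3⟩, hsx⟩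
      refine ⟨s - 1, ?_, ?_⟩
      · rw [← hsx]
        have : ((s - 1 : ℝ) : Ci) = (s : Ci) - ((1 : ℝ) : Ci) := AddCircle.coe_sub _ _ _
        rw [this, AddCircle.coe_period, sub_zero]
      · rw [abs_le]; constructor <;> linarith
    · exact ⟨s, hsx, by rw [abs_of_nonneg hs0]; linarith⟩
  rw [← hs, fourier_coe_apply, norm_sub_rev]
  have h1 : (2 * Real.pi * Complex.I * (1 : ℤ) * (s : ℂ) / (1 : ℝ) : ℂ) =
      Complex.I * ((2 * Real.pi * s : ℝ) : ℂ) := by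
    push_cast
    ring
  rw [h1]
  refine (Real.norm_exp_I_mul_ofReal_sub_one_le).trans ?_
  rw [Real.norm_eq_abs, abs_mul, abs_of_pos (by positivity : (0 : ℝ) < 2 * Real.pi)]
  exact mul_le_mul_of_nonneg_left hs2 (by positivity)

variable [CompleteSpace H]

/-- off `Th t` the factor `1 - w` is at most `2 π t` -/
theorem norm_sub_wK_le (g : K2) {t : ℝ} (ht : 0 < t) (ht2 : t < 1 / 2) :
    ‖g - wK g‖ ^ 2 ≤ ‖cut t (g - wK g)‖ ^ 2 + (2 * Real.pi * t) ^ 2 * ‖g‖ ^ 2 := by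
  have hm := measurableSet_Th t
  have e1 : ‖cut t (g - wK g)‖ ^ 2 = ∫ x in Th t, ‖((g - wK g : K2) : Ci → ℂ) x‖ ^ 2 ∂haar := by
    rw [Defect_norm_sq, ← integral_indicator hm]
    refine integral_congr_ae ?_
    filter_upwards [cut_coe t (g - wK g)] with x hx
    rw [hx]
    by_cases h : x ∈ Th t
    · simp [h]
    · simp [h]
  have e2 : ‖g - wK g‖ ^ 2 = ∫ x in Th t, ‖((g - wK g : K2) : Ci → ℂ) x‖ ^ 2 ∂haar +
      ∫ x in (Th t)ᶜ, ‖((g - wK g : K2) : Ci → ℂ) x‖ ^ 2 ∂haar := by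
    rw [Defect_norm_sq, integral_add_compl hm (Defect_integrable _)]
  rw [e1, e2]
  refine add_le_add le_rfl ?_
  calc ∫ x in (Th t)ᶜ, ‖((g - wK g : K2) : Ci → ℂ) x‖ ^ 2 ∂haar
      ≤ ∫ x in (Th t)ᶜ, (2 * Real.pi * t) ^ 2 * ‖(g : Ci → ℂ) x‖ ^ 2 ∂haar := by
        refine integral_mono_ae (Defect_integrable _).integrableOn
          ((Defect_integrable g).const_mul _).integrableOn ?_
        rw [EventuallyLE, ae_restrict_iff' hm.compl]
        filter_upwards [Lp.coeFn_sub g (wK g), wK_coe g] with x hx1 hx2 hx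
        rw [hx1, Pi.sub_apply, hx2]
        have h1 : (g : Ci → ℂ) x - fourier 1 x * (g : Ci → ℂ) x =
            (1 - fourier 1 x) * (g : Ci → ℂ) x := by ring
        rw [h1, norm_mul, mul_pow]
        exact mul_le_mul_of_nonneg_right
          (pow_le_pow_left₀ (norm_nonneg _) (Defect_off x hx) 2) (by positivity)
    _ ≤ ∫ x, (2 * Real.pi * t) ^ 2 * ‖(g : Ci → ℂ) x‖ ^ 2 ∂haar := by
        refine setIntegral_le_integral ((Defect_integrable g).const_mul _) ?_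
        exact Eventually.of_forall fun x => by positivity
    _ = (2 * Real.pi * t) ^ 2 * ‖g‖ ^ 2 := by
        rw [integral_const_mul, ← Defect_norm_sq]

theorem Defect_norm_cut_le (t : ℝ) (g : K2) : ‖cut t g‖ ≤ ‖g‖ := norm_mulF_le _ _ _ g

theorem Defect_span {R : RO} {U : H ≃ₗᵢ[ℂ] H} {f : ℕ → H} (S : Sys R U f) (J : H →L[ℂ] K2)
    (hJ : ∀ t : ℝ, 0 < t → t < 1 / 2 → ∀ g,
      Tendsto (fun k => cut t (Jk R U f k g)) atTop (𝓝 (cut t (J g)))) (k₀ : ℕ) (g : H)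
    (hg : g ∈ Sk R U f k₀) : ‖g - U g‖ ^ 2 ≤ ‖J (g - U g)‖ ^ 2 := by
  have h1 : ∀ t : ℝ, 0 < t → t < 1 / 2 →
      ‖g - U g‖ ^ 2 ≤ ‖J (g - U g)‖ ^ 2 + (2 * Real.pi * t) ^ 2 * ‖g‖ ^ 2 := by
    intro t ht ht2
    have h2 : ∀ᶠ k in atTop, ‖g - U g‖ ^ 2 ≤
        ‖cut t (Jk R U f k (g - U g))‖ ^ 2 + (2 * Real.pi * t) ^ 2 * ‖g‖ ^ 2 := by
      filter_upwards [eventually_gt_atTop k₀] with k hk
      obtain ⟨m1, m2⟩ := U_mem_Sk S k₀ k hk g hg
      have e1 : Jk R U f k (g - U g) = Jk R U f k g - wK (Jk R U f k g) := by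
        rw [map_sub, Jk_U S k₀ k hk g hg]
      have e2 : ‖g - U g‖ = ‖Jk R U f k g - wK (Jk R U f k g)‖ := by
        rw [← e1, norm_Jk_eq S k (g - U g) (Submodule.sub_mem _ m2 m1)]
      rw [e2, e1]
      refine (norm_sub_wK_le (Jk R U f k g) ht ht2).trans ?_
      refine add_le_add le_rfl (mul_le_mul_of_nonneg_left ?_ (by positivity))
      exact pow_le_pow_left₀ (norm_nonneg _) (norm_Jk_le S k g) 2
    have h3 : Tendsto (fun k => ‖cut t (Jk R U f k (g - U g))‖ ^ 2 +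
        (2 * Real.pi * t) ^ 2 * ‖g‖ ^ 2) atTop
        (𝓝 (‖cut t (J (g - U g))‖ ^ 2 + (2 * Real.pi * t) ^ 2 * ‖g‖ ^ 2)) :=
      (((hJ t ht ht2 (g - U g)).norm).pow 2).add_const _
    refine (ge_of_tendsto h3 h2).trans ?_
    refine add_le_add ?_ le_rfl
    exact pow_le_pow_left₀ (norm_nonneg _) (Defect_norm_cut_le t _) 2
  have h4 : Tendsto (fun t : ℝ => ‖J (g - U g)‖ ^ 2 + (2 * Real.pi * t) ^ 2 * ‖g‖ ^ 2)
      (𝓝[>] 0) (𝓝 (‖J (g - U g)‖ ^ 2 + (2 * Real.pi * 0) ^ 2 * ‖g‖ ^ 2)) := by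
    refine Tendsto.mono_left ?_ nhdsWithin_le_nhds
    exact (by fun_prop : Continuous fun t : ℝ =>
      ‖J (g - U g)‖ ^ 2 + (2 * Real.pi * t) ^ 2 * ‖g‖ ^ 2).tendsto 0
  have h5 : ‖g - U g‖ ^ 2 ≤ ‖J (g - U g)‖ ^ 2 + (2 * Real.pi * 0) ^ 2 * ‖g‖ ^ 2 := by
    refine ge_of_tendsto h4 ?_
    filter_upwards [Ioo_mem_nhdsGT (show (0 : ℝ) < 1 / 2 by norm_num)] with t ht
    exact h1 t ht.1 ht.2
  simpa using h5

theorem norm_J_sub {R : RO} {U : H ≃ₗᵢ[ℂ] H} {f : ℕ → H} (S : Sys R U f) (J : H →L[ℂ] K2)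
    (hJ1 : ∀ g, ‖J g‖ ≤ ‖g‖)
    (hJ : ∀ t : ℝ, 0 < t → t < 1 / 2 → ∀ g,
      Tendsto (fun k => cut t (Jk R U f k g)) atTop (𝓝 (cut t (J g)))) (g : H) :
    ‖J (g - U g)‖ = ‖g - U g‖ := by
  have hmono : Monotone (fun k => Sk R U f k) := by
    intro a b hab
    rcases hab.eq_or_lt with h | h
    · rw [h]
    · intro x hx
      exact (U_mem_Sk S a b h x hx).2
  have hcl : IsClosed {g : H | ‖J (g - U g)‖ = ‖g - U g‖} := by
    refine isClosed_eq ?_ ?_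
    · exact (J.continuous.comp (continuous_id.sub U.continuous)).norm
    · exact (continuous_id.sub U.continuous).norm
  have hsub : ((⨆ k, Sk R U f k : Submodule ℂ H) : Set H) ⊆
      {g : H | ‖J (g - U g)‖ = ‖g - U g‖} := by
    intro x hx
    obtain ⟨k, hk⟩ := (Submodule.mem_iSup_of_directed _ hmono.directed_le).1 hx
    refine le_antisymm (hJ1 _) ?_
    exact le_of_sq_le_sq (Defect_span S J hJ k x hk) (norm_nonneg _)
  have htop : (⨆ k, Sk R U f k : Submodule ℂ H).topologicalClosure = ⊤ := S.dense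
  have hg : g ∈ (⨆ k, Sk R U f k : Submodule ℂ H).topologicalClosure := by
    rw [htop]; exact Submodule.mem_top
  exact hcl.closure_subset_iff.2 hsub hg

end Vale.Agent.P130H
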