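import Vale.Agent.Lib.P130H.B.BDefs

/-! P130H part B: isometry on the complement of the invariant vectors (abstract). -/

namespace Vale.Agent.P130H

open MeasureTheory Filter Topology
open scoped ENNReal ComplexConjugate

variable {H : Type} [NormedAddCommGroup H] [InnerProductSpace ℂ H]

variable [CompleteSpace H]

theorem Iso_expand {K : Type} [NormedAddCommGroup K] [InnerProductSpace ℂ K] (a b : K) (z : ℂ) :
    ‖a + z • b‖ ^ 2 = ‖a‖ ^ 2 + 2 * (z * inner ℂ a b).re + ‖z‖ ^ 2 * ‖b‖ ^ 2 := by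
  rw [@norm_add_sq ℂ, inner_smul_right, norm_smul, mul_pow]
  rfl

/-- a contraction which is isometric on a subspace preserves inner products with it -/
theorem inner_of_norm_eq {K : Type} [NormedAddCommGroup K] [InnerProductSpace ℂ K]
    (J : H →L[ℂ] K) (hJ1 : ∀ g, ‖J g‖ ≤ ‖g‖) (g g' : H) (hg : ‖J g‖ = ‖g‖) :
    inner ℂ (J g) (J g') = inner ℂ g g' := by
  set b : ℂ := inner ℂ g g' - inner ℂ (J g) (J g') with hb
  set c : ℝ := ‖g'‖ ^ 2 - ‖J g'‖ ^ 2 with hc
  have hc0 : 0 ≤ c := by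
    have := hJ1 g'
    have h0 := norm_nonneg (J g')
    nlinarith
  have key : ∀ z : ℂ, 0 ≤ 2 * (z * b).re + ‖z‖ ^ 2 * c := by
    intro z
    have h1 := hJ1 (g + z • g')
    have h2 : ‖J (g + z • g')‖ ^ 2 ≤ ‖g + z • g'‖ ^ 2 :=
      pow_le_pow_left₀ (norm_nonneg _) h1 2
    rw [map_add, map_smul, Iso_expand, Iso_expand, hg] at h2
    have h3 : (z * b).re = (z * inner ℂ g g').re - (z * inner ℂ (J g) (J g')).re := by
      rw [hb, mul_sub, Complex.sub_re]
    rw [h3, hc]
    linarith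
  have hb0 : b = 0 := by
    by_contra hne
    have hbpos : 0 < ‖b‖ ^ 2 := by positivity
    have h1 := key (-(((1 / (c + 1) : ℝ)) : ℂ) * conj b)
    have hs : 0 < 1 / (c + 1) := by positivity
    have h2 : (-(((1 / (c + 1) : ℝ)) : ℂ) * conj b * b) = ((-(1 / (c + 1)) * ‖b‖ ^ 2 : ℝ) : ℂ) := by
      rw [mul_assoc, Complex.conj_mul']
      push_cast
      ring
    have h3 : ‖(-(((1 / (c + 1) : ℝ)) : ℂ) * conj b)‖ = 1 / (c + 1) * ‖b‖ := by
      rw [norm_mul, norm_neg, Complex.norm_real, Real.norm_eq_abs, abs_of_pos hs,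
        RCLike.norm_conj]
    rw [h2, h3, Complex.ofReal_re] at h1
    have h4 : 1 / (c + 1) * c ≤ 1 := by
      rw [one_div, inv_mul_le_iff₀ (by positivity)]
      linarith
    have h5 : (1 / (c + 1) * ‖b‖) ^ 2 * c = (1 / (c + 1) * ‖b‖ ^ 2) * (1 / (c + 1) * c) := by
      ring
    have h6 : (1 / (c + 1) * ‖b‖ ^ 2) * (1 / (c + 1) * c) ≤ (1 / (c + 1) * ‖b‖ ^ 2) * 1 :=
      mul_le_mul_of_nonneg_left h4 (by positivity)
    have h7 : 0 < 1 / (c + 1) * ‖b‖ ^ 2 := by positivity
    rw [h5] at h1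
    linarith
  rw [hb, sub_eq_zero] at hb0
  exact hb0.symm

theorem Iso_vol_zero : (volume : Measure Ci) ({0} : Set Ci) = 0 := by
  have h := AddCircle.measurePreserving_mk (1 : ℝ) 0
  rw [← h.measure_preimage (measurableSet_singleton _).nullMeasurableSet]
  refine le_antisymm (le_trans (Measure.restrict_apply_le _ _) (le_of_eq ?_)) zero_le
  apply Set.Countable.measure_zero
  refine Set.Countable.mono ?_ (Set.countable_range (fun n : ℤ => (n • (1 : ℝ))))
  intro x hx
  have hx0 : (x : AddCircle (1 : ℝ)) = 0 := hx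
  rw [AddCircle.coe_eq_zero_iff] at hx0
  obtain ⟨n, hn⟩ := hx0
  exact ⟨n, hn⟩

theorem Iso_haar_zero : haar ({0} : Set Ci) = 0 := by
  have h := Iso_vol_zero
  rw [AddCircle.volume_eq_smul_haarAddCircle, ENNReal.ofReal_one, one_smul] at h
  exact h

theorem wK_fixed (g : K2) (hg : wK g = g) : g = 0 := by
  have h1 := wK_coe g
  rw [hg] at h1
  have h2 : ∀ᵐ x : Ci ∂haar, x ≠ 0 := by
    rw [ae_iff]
    simpa using Iso_haar_zero
  rw [Lp.eq_zero_iff_ae_eq_zero]
  filter_upwards [h1, h2] with x hx hx0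
  have h3 : (fourier 1 x - 1 : ℂ) * g x = 0 := by
    rw [sub_mul, one_mul, ← hx, sub_self]
  rcases mul_eq_zero.1 h3 with h4 | h4
  · exfalso
    apply hx0
    have h5 : (fourier 1 x : ℂ) = 1 := sub_eq_zero.1 h4
    rw [fourier_apply, one_smul] at h5
    have h6 : AddCircle.toCircle x = 1 := by
      apply Subtype.ext
      exact h5
    rw [← AddCircle.toCircle_zero (T := (1 : ℝ))] at h6
    exact AddCircle.injective_toCircle one_ne_zero h6
  · exact h4

theorem norm_J_eq (U : H ≃ₗᵢ[ℂ] H) (J : H →L[ℂ] K2) (hJ1 : ∀ g, ‖J g‖ ≤ ‖g‖)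
    (hJ2 : ∀ g, ‖J (g - U g)‖ = ‖g - U g‖) (g : H)
    (hg : ∀ c, U c = c → inner ℂ c g = 0) : ‖J g‖ = ‖g‖ := by
  let L : H →ₗ[ℂ] H := LinearMap.id - U.toLinearEquiv.toLinearMap
  have hL : ∀ x, L x = x - U x := fun x => rfl
  have hmem : g ∈ (LinearMap.range L)ᗮᗮ := by
    rw [Submodule.mem_orthogonal]
    intro c hc
    rw [Submodule.mem_orthogonal] at hc
    apply hg
    have h1 : ∀ x, inner ℂ x (U.symm c - c) = 0 := by
      intro x
      have h2 := hc (L x) ⟨x, rfl⟩
      rw [hL, inner_sub_left] at h2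
      have h3 : inner ℂ (U x) c = inner ℂ x (U.symm c) := by
        rw [← U.inner_map_map x (U.symm c), U.apply_symm_apply]
      rw [h3] at h2
      rw [inner_sub_right]
      linear_combination -h2
    have h4 : U.symm c - c = 0 := by
      have := h1 (U.symm c - c)
      exact inner_self_eq_zero.1 this
    have h5 : U.symm c = c := sub_eq_zero.1 h4
    calc U c = U (U.symm c) := by rw [h5]
      _ = c := U.apply_symm_apply c
  rw [Submodule.orthogonal_orthogonal_eq_closure] at hmem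
  have hclosed : IsClosed {x : H | ‖J x‖ = ‖x‖} :=
    isClosed_eq (J.continuous.norm) continuous_norm
  have hsub : closure ((LinearMap.range L : Submodule ℂ H) : Set H) ⊆ {x : H | ‖J x‖ = ‖x‖} := by
    refine closure_minimal ?_ hclosed
    rintro _ ⟨x, rfl⟩
    exact hJ2 x
  exact hsub hmem

end Vale.Agent.P130H
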