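import Vale.Agent.Lib.P130H.B.BDefs

/-! P130H part B: the invariant vectors form a line. -/

namespace Vale.Agent.P130H

open MeasureTheory Filter Topology
open scoped ENNReal ComplexConjugate

variable {H : Type} [NormedAddCommGroup H] [InnerProductSpace ℂ H]

/-- inner products of an invariant vector with an orbit -/
theorem line_inner_iterate {U : H ≃ₗᵢ[ℂ] H} {g : H} (hg : U g = g) (x : H) (i : ℕ) :
    (inner ℂ g (U^[i] x) : ℂ) = inner ℂ g x := by
  induction i with
  | zero => simp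
  | succ i ih =>
    rw [Function.iterate_succ', Function.comp_apply]
    have h1 : (inner ℂ (U g) (U (U^[i] x)) : ℂ) = inner ℂ g (U^[i] x) :=
      LinearIsometryEquiv.inner_map_map U g (U^[i] x)
    rw [hg] at h1
    rw [h1, ih]

theorem line_recur {R : RO} {U : H ≃ₗᵢ[ℂ] H} {f : ℕ → H} (S : Sys R U f) {g : H} (hg : U g = g)
    (k : ℕ) : (inner ℂ g (f k) : ℂ) = ((Real.sqrt (R.m k) : ℝ) : ℂ) * inner ℂ g (f (k + 1)) := by
  have h1 : (inner ℂ g (f k) : ℂ) = ((Real.sqrt (R.m k))⁻¹ : ℂ) *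
      ∑ j ∈ Finset.range (R.m k), (inner ℂ g (U^[R.pos k j] (f (k + 1))) : ℂ) := by
    conv_lhs => rw [S.recur k]
    rw [inner_smul_right, inner_sum]
  rw [h1, Finset.sum_congr rfl fun j _ => line_inner_iterate hg (f (k + 1)) (R.pos k j),
    Finset.sum_const, Finset.card_range, nsmul_eq_mul, ← mul_assoc]
  congr 1
  have hm : (0 : ℝ) < R.m k := by
    have := R.two_le k
    exact_mod_cast (by omega : 0 < R.m k)
  have hs : Real.sqrt (R.m k) ≠ 0 := (Real.sqrt_pos.2 hm).ne'
  have h2 : ((R.m k : ℝ)) = Real.sqrt (R.m k) * Real.sqrt (R.m k) :=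
    (Real.mul_self_sqrt hm.le).symm
  have h3 : (Real.sqrt (R.m k))⁻¹ * (R.m k : ℝ) = Real.sqrt (R.m k) := by
    rw [inv_mul_eq_iff_eq_mul₀ hs]
    exact h2
  have h4 := congrArg (fun x : ℝ => (x : ℂ)) h3
  simp only [Complex.ofReal_mul, Complex.ofReal_inv, Complex.ofReal_natCast] at h4
  exact h4

theorem line_eq_zero {R : RO} {U : H ≃ₗᵢ[ℂ] H} {f : ℕ → H} (S : Sys R U f) (g : H)
    (h : ∀ k, ∀ i < R.h k, (inner ℂ g (U^[i] (f k)) : ℂ) = 0) : g = 0 := by
  have hle : (⨆ k, Submodule.span ℂ (Set.range (fun i : Fin (R.h k) => U^[(i : ℕ)] (f k)))) ≤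
      (LinearMap.ker (innerSL ℂ g : H →L[ℂ] ℂ).toLinearMap) := by
    refine iSup_le fun k => Submodule.span_le.2 ?_
    rintro _ ⟨i, rfl⟩
    simp only [SetLike.mem_coe, LinearMap.mem_ker]
    exact h k i i.2
  have hcl : (⨆ k, Submodule.span ℂ (Set.range
      (fun i : Fin (R.h k) => U^[(i : ℕ)] (f k)))).topologicalClosure ≤
      (LinearMap.ker (innerSL ℂ g : H →L[ℂ] ℂ).toLinearMap) :=
    Submodule.topologicalClosure_minimal _ hle (innerSL ℂ g : H →L[ℂ] ℂ).isClosed_ker
  rw [S.dense] at hcl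
  have h2 : g ∈ (LinearMap.ker (innerSL ℂ g : H →L[ℂ] ℂ).toLinearMap) := hcl Submodule.mem_top
  have h3 : (inner ℂ g g : ℂ) = 0 := h2
  exact inner_self_eq_zero.1 h3

variable [CompleteSpace H]

theorem inv_line {R : RO} {U : H ≃ₗᵢ[ℂ] H} {f : ℕ → H} (S : Sys R U f) (c g : H) (hc : U c = c)
    (hc0 : c ≠ 0) (hg : U g = g) : ∃ a : ℂ, g = a • c := by
  have hs : ∀ k, ((Real.sqrt (R.m k) : ℝ) : ℂ) ≠ 0 := by
    intro k
    have hm : (0 : ℝ) < R.m k := by
      have := R.two_le k
      exact_mod_cast (by omega : 0 < R.m k)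
    exact_mod_cast (Real.sqrt_pos.2 hm).ne'
  have hc1 : (inner ℂ c (f 0) : ℂ) ≠ 0 := by
    intro h0
    have h1 : ∀ k, (inner ℂ c (f k) : ℂ) = 0 := by
      intro k
      induction k with
      | zero => exact h0
      | succ k ih =>
        have h2 := line_recur S hc k
        rw [ih] at h2
        exact (mul_eq_zero.1 h2.symm).resolve_left (hs k)
    apply hc0
    apply line_eq_zero S
    intro k i _
    rw [line_inner_iterate hc, h1 k]
  have hk : ∀ k, (inner ℂ g (f k) : ℂ) * inner ℂ c (f 0) = inner ℂ g (f 0) * inner ℂ c (f k) := by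
    intro k
    induction k with
    | zero => rfl
    | succ k ih =>
      rw [line_recur S hg k, line_recur S hc k] at ih
      apply mul_left_cancel₀ (hs k)
      linear_combination ih
  refine ⟨conj ((inner ℂ g (f 0) : ℂ) / inner ℂ c (f 0)), ?_⟩
  rw [← sub_eq_zero]
  apply line_eq_zero S
  intro k i _
  rw [inner_sub_left, inner_smul_left, line_inner_iterate hc, line_inner_iterate hg,
    Complex.conj_conj, div_mul_eq_mul_div, ← hk k, mul_div_assoc, div_self hc1, mul_one, sub_self]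

end Vale.Agent.P130H
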