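import Vale.Agent.Lib.P130H.B.Step

/-! P130H part B: the range is dense. -/

namespace Vale.Agent.P130H

open MeasureTheory Filter Topology
open scoped ENNReal ComplexConjugate

variable {H : Type} [NormedAddCommGroup H] [InnerProductSpace ℂ H]

variable [CompleteSpace H]

/-- `J f_k` is close to the unimodular `v k` on `Th t` -/
theorem cut_J_sub {R : RO} {U : H ≃ₗᵢ[ℂ] H} {f : ℕ → H} (S : Sys R U f) (J : H →L[ℂ] K2)
    (hJ : ∀ t : ℝ, 0 < t → t < 1 / 2 → ∀ g,
      Tendsto (fun k => cut t (Jk R U f k g)) atTop (𝓝 (cut t (J g))))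
    {t : ℝ} (ht : 0 < t) (ht2 : t < 1 / 2) (d : ℕ → ℝ) (hd : Summable d) (hd0 : ∀ k, 0 ≤ d k)
    (hd1 : ∀ k₀ k, k₀ ≤ k → ∫ x in Th t, R.rho k₀ k x * |‖R.p k x‖ ^ 2 - 1| ∂haar ≤ d k ^ 2)
    (k : ℕ) (hk : 0 < R.h k) : ‖cut t (J (f k) - bK R k 0)‖ ≤ ∑' j, d (j + k) := by
  have hlim : Tendsto (fun n => cut t (Jk R U f (n + k) (f k))) atTop
      (𝓝 (cut t (J (f k)))) := (hJ t ht ht2 (f k)).comp (tendsto_add_atTop_nat k)
  have hstep : ∀ n, dist (cut t (Jk R U f (n + k) (f k)))
      (cut t (Jk R U f (n.succ + k) (f k))) ≤ d (n + k) := by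
    intro n
    have h1 := norm_cut_step S k (n + k) 0 (Nat.le_add_left k n) hk t
    have h2 := h1.trans (hd1 k (n + k) (Nat.le_add_left k n))
    have h3 := abs_le_of_sq_le_sq h2 (hd0 (n + k))
    rw [abs_of_nonneg (norm_nonneg _)] at h3
    rw [dist_comm, dist_eq_norm, ← map_sub]
    have e1 : n.succ + k = n + k + 1 := by omega
    rw [e1]
    exact h3
  have h1 := dist_le_tsum_of_dist_le_of_tendsto₀ (fun n => d (n + k)) hstep
    ((summable_nat_add_iff k).2 hd) hlim
  have h2 : Jk R U f k (f k) = bK R k 0 := Jk_level S k 0 hk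
  rw [dist_comm, dist_eq_norm, ← map_sub, Nat.zero_add, h2] at h1
  exact h1

private theorem Range_integrable_cont_mul (h : Ci → ℂ) (hh : Integrable h haar)
    (φ : C(Ci, ℂ)) : Integrable (fun t => φ t * h t) haar := by
  refine hh.bdd_mul (c := ‖φ‖) (map_continuous φ).aestronglyMeasurable ?_
  exact Filter.Eventually.of_forall fun t => φ.norm_coe_le_norm t

private theorem Range_integral_cont_mul_zero (h : Ci → ℂ) (hh : Integrable h haar)
    (h0 : ∀ n : ℤ, ∫ t, fourier n t * h t ∂haar = 0) (φ : C(Ci, ℂ)) :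
    ∫ t, φ t * h t ∂haar = 0 := by
  obtain ⟨Λ, hΛ⟩ : ∃ Λ : C(Ci, ℂ) →L[ℂ] ℂ, ∀ φ, Λ φ = ∫ t, φ t * h t ∂haar := by
    refine ⟨LinearMap.mkContinuous { toFun := fun φ => ∫ t, φ t * h t ∂haar
                                     map_add' := ?_
                                     map_smul' := ?_ } (∫ t, ‖h t‖ ∂haar) ?_, fun φ => rfl⟩
    · intro φ ψ
      rw [← integral_add (Range_integrable_cont_mul h hh φ) (Range_integrable_cont_mul h hh ψ)]
      congr 1
      funext t
      rw [ContinuousMap.add_apply, add_mul]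
    · intro c φ
      rw [RingHom.id_apply, smul_eq_mul, ← integral_const_mul]
      congr 1
      funext t
      rw [ContinuousMap.smul_apply, smul_eq_mul, mul_assoc]
    · intro φ
      change ‖∫ t, φ t * h t ∂haar‖ ≤ _
      refine (norm_integral_le_integral_norm _).trans ?_
      rw [mul_comm, ← integral_const_mul]
      refine integral_mono (Range_integrable_cont_mul h hh φ).norm (hh.norm.const_mul _)
        fun t => ?_
      change ‖φ t * h t‖ ≤ ‖φ‖ * ‖h t‖
      rw [norm_mul]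
      exact mul_le_mul_of_nonneg_right (φ.norm_coe_le_norm t) (norm_nonneg _)
  have h1 : (⊤ : Submodule ℂ C(Ci, ℂ)) ≤ LinearMap.ker (Λ : C(Ci, ℂ) →ₗ[ℂ] ℂ) := by
    rw [← span_fourier_closure_eq_top]
    refine Submodule.topologicalClosure_minimal _ ?_ ?_
    · rw [Submodule.span_le]
      rintro _ ⟨n, rfl⟩
      rw [SetLike.mem_coe, LinearMap.mem_ker]
      change Λ (fourier n) = 0
      rw [hΛ]
      exact h0 n
    · exact ContinuousLinearMap.isClosed_ker Λ
  have h2 : φ ∈ LinearMap.ker (Λ : C(Ci, ℂ) →ₗ[ℂ] ℂ) := h1 Submodule.mem_top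
  rw [LinearMap.mem_ker] at h2
  rw [← hΛ]
  exact h2

open scoped NNReal BoundedContinuousFunction in
/-- uniqueness of Fourier coefficients in `L¹` -/
private theorem Range_ae_zero_of_fourier (h : Ci → ℂ) (hh : Integrable h haar)
    (h0 : ∀ n : ℤ, ∫ t, fourier n t * h t ∂haar = 0) : h =ᵐ[haar] 0 := by
  refine ae_eq_zero_of_forall_setIntegral_isClosed_eq_zero hh ?_
  intro F hF
  have hlim : Tendsto (fun n : ℕ => ∫ t, (((hF.apprSeq n t : ℝ≥0) : ℝ) : ℂ) * h t ∂haar) atTop
      (𝓝 (∫ t, F.indicator h t ∂haar)) := by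
    refine tendsto_integral_of_dominated_convergence (fun t => ‖h t‖) ?_ hh.norm ?_ ?_
    · intro n
      have hc : Continuous fun t : Ci => (((hF.apprSeq n t : ℝ≥0) : ℝ) : ℂ) := by
        have := (hF.apprSeq n).continuous
        fun_prop
      exact hc.aestronglyMeasurable.mul hh.aestronglyMeasurable
    · intro n
      refine Filter.Eventually.of_forall fun t => ?_
      rw [norm_mul, Complex.norm_real, Real.norm_of_nonneg (NNReal.coe_nonneg _)]
      have h1 : ((hF.apprSeq n t : ℝ≥0) : ℝ) ≤ 1 := by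
        exact_mod_cast HasOuterApproxClosed.apprSeq_apply_le_one hF n t
      calc ((hF.apprSeq n t : ℝ≥0) : ℝ) * ‖h t‖ ≤ 1 * ‖h t‖ :=
            mul_le_mul_of_nonneg_right h1 (norm_nonneg _)
        _ = ‖h t‖ := one_mul _
    · refine Filter.Eventually.of_forall fun t => ?_
      have h1 := tendsto_pi_nhds.1 (HasOuterApproxClosed.tendsto_apprSeq hF) t
      have h2 : Tendsto (fun n : ℕ => (((hF.apprSeq n t : ℝ≥0) : ℝ) : ℂ)) atTop
          (𝓝 (((F.indicator (fun _ => (1 : ℝ≥0)) t : ℝ≥0) : ℝ) : ℂ)) :=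
        (Complex.continuous_ofReal.tendsto _).comp ((NNReal.continuous_coe.tendsto _).comp h1)
      have h3 := h2.mul_const (h t)
      have h4 : (((F.indicator (fun _ => (1 : ℝ≥0)) t : ℝ≥0) : ℝ) : ℂ) * h t =
          F.indicator h t := by
        by_cases ht : t ∈ F
        · rw [Set.indicator_of_mem ht, Set.indicator_of_mem ht]
          simp
        · rw [Set.indicator_of_notMem ht, Set.indicator_of_notMem ht]
          simp
      rw [h4] at h3
      exact h3
  have hz : ∀ n : ℕ, ∫ t, (((hF.apprSeq n t : ℝ≥0) : ℝ) : ℂ) * h t ∂haar = 0 := by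
    intro n
    have hc : Continuous fun t : Ci => (((hF.apprSeq n t : ℝ≥0) : ℝ) : ℂ) := by
      have := (hF.apprSeq n).continuous
      fun_prop
    exact Range_integral_cont_mul_zero h hh h0 ⟨_, hc⟩
  simp_rw [hz] at hlim
  rw [integral_indicator hF.measurableSet] at hlim
  exact (tendsto_nhds_unique hlim tendsto_const_nhds)

/-- an `L²` function orthogonal to all `w^n a` vanishes almost everywhere where `a` does not -/
theorem mul_eq_zero_of_orth (a g : K2)
    (h : ∀ n : ℤ, ∫ x, conj (g x) * (fourier n x * a x) ∂haar = 0) :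
    ∀ᵐ x ∂haar, a x = 0 ∨ g x = 0 := by
  have hi : Integrable (fun x => conj (g x) * a x) haar := by
    have hg : MemLp (fun x => conj (g x)) 2 haar := by
      have h1 := (Lp.memLp g)
      exact h1.star
    exact MemLp.integrable_mul hg (Lp.memLp a)
  have h1 := Range_ae_zero_of_fourier (fun x => conj (g x) * a x) hi (fun n => by
    rw [← h n]
    refine integral_congr_ae (Eventually.of_forall fun x => ?_)
    change fourier n x * (conj (g x) * a x) = conj (g x) * (fourier n x * a x)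
    ring)
  filter_upwards [h1] with x hx
  have h2 : conj (g x) * a x = 0 := hx
  rcases mul_eq_zero.1 h2 with h3 | h3
  · right
    exact (map_eq_zero (starRingEnd ℂ)).1 h3
  · left
    exact h3

private theorem Range_norm_sq (F : K2) : ‖F‖ ^ 2 = ∫ x, ‖F x‖ ^ 2 ∂haar := by
  have h1 : inner ℂ F F = ((‖F‖ : ℝ) : ℂ) ^ 2 := inner_self_eq_norm_sq_to_K F
  rw [L2.inner_def] at h1
  have h2 : ∀ x, inner ℂ (F x) (F x) = ((‖F x‖ ^ 2 : ℝ) : ℂ) := fun x => by
    rw [Complex.ofReal_pow]
    exact inner_self_eq_norm_sq_to_K (F x)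
  simp_rw [h2] at h1
  rw [integral_complex_ofReal, ← Complex.ofReal_pow] at h1
  exact (Complex.ofReal_injective h1).symm

private theorem Range_h_pos (R : RO) (k : ℕ) : 0 < R.h k := by
  cases k with
  | zero => exact R.h_pos
  | succ k => exact lt_of_le_of_lt (Nat.zero_le _) (R.last k)

private theorem Range_iterate {U : H ≃ₗᵢ[ℂ] H} (J : H →L[ℂ] K2)
    (hJU : ∀ g, J (U g) = wK (J g)) (n : ℕ) (x : H) :
    (J (U^[n] x) : Ci → ℂ) =ᵐ[haar] fun t => fourier (n : ℤ) t * J x t := by
  induction n with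
  | zero =>
    refine Eventually.of_forall fun t => ?_
    change J x t = fourier ((0 : ℕ) : ℤ) t * J x t
    rw [Nat.cast_zero, fourier_zero, one_mul]
  | succ n ih =>
    rw [Function.iterate_succ_apply', hJU]
    filter_upwards [ih, wK_coe (J (U^[n] x))] with t h1 h2
    rw [h2, h1, Nat.cast_succ, fourier_add]
    ring

private theorem Range_orth {U : H ≃ₗᵢ[ℂ] H} (J : H →L[ℂ] K2)
    (hJU : ∀ g, J (U g) = wK (J g)) (g : K2) (hg : ∀ x, inner ℂ g (J x) = 0) (x : H) (n : ℤ) :
    ∫ t, conj (g t) * (fourier n t * J x t) ∂haar = 0 := by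
  obtain ⟨y, hy⟩ : ∃ y : H, (J y : Ci → ℂ) =ᵐ[haar] fun t => fourier n t * J x t := by
    obtain ⟨m, rfl | rfl⟩ := n.eq_nat_or_neg
    · exact ⟨U^[m] x, Range_iterate J hJU m x⟩
    · refine ⟨U.symm^[m] x, ?_⟩
      have h1 := Range_iterate J hJU m (U.symm^[m] x)
      have h2 : U^[m] (U.symm^[m] x) = x :=
        (Function.LeftInverse.iterate (fun z => U.apply_symm_apply z) m) x
      rw [h2] at h1
      filter_upwards [h1] with t ht
      rw [ht, ← mul_assoc, ← fourier_add, neg_add_cancel, fourier_zero, one_mul]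
  have h1 := hg y
  rw [L2.inner_def] at h1
  rw [← h1]
  refine integral_congr_ae ?_
  filter_upwards [hy] with t ht
  rw [RCLike.inner_apply, ht, mul_comm]

theorem range_dense {R : RO} (hR : R.Flat) {U : H ≃ₗᵢ[ℂ] H} {f : ℕ → H} (S : Sys R U f)
    (J : H →L[ℂ] K2)
    (hJ : ∀ t : ℝ, 0 < t → t < 1 / 2 → ∀ g,
      Tendsto (fun k => cut t (Jk R U f k g)) atTop (𝓝 (cut t (J g))))
    (hJU : ∀ g, J (U g) = wK (J g)) (g : K2) (hg : ∀ x, inner ℂ g (J x) = 0) : g = 0 := by
  have hz : ∀ k, ∀ᵐ x ∂haar, J (f k) x = 0 ∨ g x = 0 := fun k =>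
    mul_eq_zero_of_orth (J (f k)) g (fun n => Range_orth J hJU g hg (f k) n)
  have hgm : MeasurableSet {x | g x ≠ 0} :=
    (Lp.stronglyMeasurable g).measurable (measurableSet_singleton (0 : ℂ)).compl
  -- `g` vanishes on `Th t`
  have hT : ∀ t : ℝ, 0 < t → t < 1 / 2 → haar (Th t ∩ {x | g x ≠ 0}) = 0 := by
    intro t ht ht2
    obtain ⟨d, hd, hd0, hd1⟩ := hR t ht ht2
    have hB : MeasurableSet (Th t ∩ {x | g x ≠ 0}) := (measurableSet_Th t).inter hgm
    have h1 : ∀ k, haar.real (Th t ∩ {x | g x ≠ 0}) ≤ (∑' j, d (j + k)) ^ 2 := by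
      intro k
      have h2 := cut_J_sub S J hJ ht ht2 d hd hd0 hd1 k (Range_h_pos R k)
      have h3 : haar.real (Th t ∩ {x | g x ≠ 0}) ≤ ‖cut t (J (f k) - bK R k 0)‖ ^ 2 := by
        rw [Range_norm_sq]
        have h4 : haar.real (Th t ∩ {x | g x ≠ 0}) =
            ∫ x, (Th t ∩ {x | g x ≠ 0}).indicator (fun _ => (1 : ℝ)) x ∂haar := by
          rw [integral_indicator hB, setIntegral_const, smul_eq_mul, mul_one]
        rw [h4]
        refine integral_mono_of_nonneg ?_ ?_ ?_
        · refine Eventually.of_forall fun x => ?_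
          exact Set.indicator_nonneg (fun _ _ => zero_le_one) x
        · have h5 := (Lp.memLp (cut t (J (f k) - bK R k 0))).norm
          exact h5.integrable_sq
        · filter_upwards [cut_coe t (J (f k) - bK R k 0), Lp.coeFn_sub (J (f k)) (bK R k 0),
            hz k, bK_coe R k 0] with x e1 e2 e3 e4
          by_cases hx : x ∈ Th t ∩ {x | g x ≠ 0}
          · rw [Set.indicator_of_mem hx, e1, Set.indicator_of_mem hx.1, one_mul, e2,
              Pi.sub_apply, e4, e3.resolve_right hx.2, zero_sub, norm_neg, norm_mul,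
              norm_v, Nat.cast_zero, fourier_zero, norm_one]
            norm_num
          · rw [Set.indicator_of_notMem hx]
            positivity
      exact h3.trans (pow_le_pow_left₀ (norm_nonneg _) h2 2)
    have h2 : Tendsto (fun k => (∑' j, d (j + k)) ^ 2) atTop (𝓝 0) := by
      have h3 := (tendsto_sum_nat_add d).pow 2
      rw [zero_pow two_ne_zero] at h3
      exact h3
    have h3 : haar.real (Th t ∩ {x | g x ≠ 0}) ≤ 0 :=
      ge_of_tendsto h2 (Eventually.of_forall h1)
    have h4 : haar.real (Th t ∩ {x | g x ≠ 0}) = 0 := le_antisymm h3 measureReal_nonneg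
    exact (measureReal_eq_zero_iff).1 h4
  have hn : ‖g‖ ^ 2 = 0 := by
    have h1 : ∀ n : ℕ, ‖g‖ ^ 2 = ∫ x in (Th (1 / ((n : ℝ) + 3)))ᶜ, ‖g x‖ ^ 2 ∂haar := by
      intro n
      have ht : (0 : ℝ) < 1 / ((n : ℝ) + 3) := by positivity
      have ht2 : 1 / ((n : ℝ) + 3) < 1 / 2 := by
        have h0 : (0 : ℝ) ≤ n := Nat.cast_nonneg n
        exact one_div_lt_one_div_of_lt two_pos (by linarith)
      have hi : Integrable (fun x => ‖g x‖ ^ 2) haar := (Lp.memLp g).norm.integrable_sq
      rw [Range_norm_sq, ← integral_add_compl (measurableSet_Th (1 / ((n : ℝ) + 3))) hi]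
      have h2 : ∫ x in Th (1 / ((n : ℝ) + 3)), ‖g x‖ ^ 2 ∂haar = 0 := by
        refine setIntegral_eq_zero_of_ae_eq_zero ?_
        have h3 : ∀ᵐ x ∂haar, x ∉ Th (1 / ((n : ℝ) + 3)) ∩ {x | g x ≠ 0} :=
          measure_eq_zero_iff_ae_notMem.1 (hT _ ht ht2)
        filter_upwards [h3] with x hx hxT
        have h4 : g x = 0 := by
          by_contra h5
          exact hx ⟨hxT, h5⟩
        rw [h4, norm_zero]
        norm_num
      rw [h2, zero_add]
    have h2 : Tendsto (fun _ : ℕ => ‖g‖ ^ 2) atTop (𝓝 0) :=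
      (tendsto_Th g).congr (fun n => (h1 n).symm)
    exact tendsto_nhds_unique tendsto_const_nhds h2
  exact norm_eq_zero.1 (pow_eq_zero_iff two_ne_zero |>.1 hn)

end Vale.Agent.P130H
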