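import Vale.Agent.Lib.P130H.B.Lim
import Vale.Agent.Lib.P130H.B.Defect
import Vale.Agent.Lib.P130H.B.Iso
import Vale.Agent.Lib.P130H.B.Line
import Vale.Agent.Lib.P130H.B.Range

/-! P130H part B: the abstract theorem. -/

namespace Vale.Agent.P130H

open MeasureTheory Filter Topology
open scoped ENNReal ComplexConjugate

variable {H : Type} [NormedAddCommGroup H] [InnerProductSpace ℂ H]

private lemma Fin_wK_inj {a b : K2} (h : wK a = wK b) : a = b := by
  have h1 : wK (a - b) = 0 := by rw [map_sub, h, sub_self]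
  have h2 := norm_wK (a - b)
  rw [h1, norm_zero] at h2
  exact sub_eq_zero.1 (norm_eq_zero.1 h2.symm)

private lemma Fin_wK_fourier (n : ℤ) :
    wK (fourierLp (T := 1) 2 n) = fourierLp (T := 1) 2 (n + 1) := by
  refine Lp.ext ?_
  filter_upwards [wK_coe (fourierLp (T := 1) 2 n), coeFn_fourierLp (T := 1) 2 n,
    coeFn_fourierLp (T := 1) 2 (n + 1)] with x h1 h2 h3
  rw [h1, h2, h3, add_comm, fourier_add]

/-- abstract theorem: a rank one system with a flat Riesz product has simple Lebesgue spectrum on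
the complement of the invariant vector `c` -/
theorem exists_basis [CompleteSpace H] {R : RO} (hR : R.Flat) {U : H ≃ₗᵢ[ℂ] H} {f : ℕ → H}
    (S : Sys R U f) (c : H) (hc : U c = c) (hc1 : c ≠ 0) :
    ∃ g : H, inner ℂ c g = 0 ∧ Orthonormal ℂ (fun n : ℤ => (U ^ n) g) ∧
      ∀ x, inner ℂ c x = 0 → (∀ n : ℤ, inner ℂ ((U ^ n) g) x = 0) → x = 0 := by
  obtain ⟨J, hJ1, hJ⟩ := exists_J hR S
  have hJU : ∀ g, J (U g) = wK (J g) := J_U S J hJ
  have hJ2 : ∀ g, ‖J (g - U g)‖ = ‖g - U g‖ := norm_J_sub S J hJ1 hJ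
  have hiso : ∀ g, inner ℂ c g = 0 → ‖J g‖ = ‖g‖ := by
    intro g hg
    refine norm_J_eq U J hJ1 hJ2 g fun c' hc' => ?_
    obtain ⟨a, rfl⟩ := inv_line S c c' hc hc1 hc'
    rw [inner_smul_left, hg, mul_zero]
  have hJc : J c = 0 := wK_fixed _ (by rw [← hJU, hc])
  let V : Submodule ℂ H := (Submodule.span ℂ {c})ᗮ
  have hV : ∀ x, x ∈ V ↔ inner ℂ c x = 0 := fun x =>
    Submodule.mem_orthogonal_singleton_iff_inner_right
  let JV : V →ₗᵢ[ℂ] K2 :=
    ⟨(J : H →ₗ[ℂ] K2).comp V.subtype, fun x => hiso x ((hV x).1 x.2)⟩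
  have hJV : ∀ x : V, JV x = J x := fun x => rfl
  have hcl : IsClosed (LinearMap.range JV.toLinearMap : Set K2) :=
    JV.isometry.isClosedEmbedding.isClosed_range
  have : CompleteSpace (LinearMap.range JV.toLinearMap) := hcl.completeSpace_coe
  have hbot : (LinearMap.range JV.toLinearMap)ᗮ = ⊥ := by
    rw [Submodule.eq_bot_iff]
    intro g hg
    refine range_dense hR S J hJ hJU g fun x => ?_
    have hcc : (inner ℂ c c : ℂ) ≠ 0 := inner_self_ne_zero.2 hc1
    have hy : x - (inner ℂ c x / inner ℂ c c : ℂ) • c ∈ V := by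
      rw [hV, inner_sub_right, inner_smul_right, div_mul_cancel₀ _ hcc, sub_self]
    have h1 : J x = JV ⟨_, hy⟩ := by
      rw [hJV]
      simp only [map_sub, map_smul, hJc, smul_zero, sub_zero]
    rw [h1]
    exact Submodule.inner_left_of_mem_orthogonal (LinearMap.mem_range_self _ _) hg
  have htop : LinearMap.range JV.toLinearMap = ⊤ := Submodule.orthogonal_eq_bot_iff.1 hbot
  have hsurj : ∀ y : K2, ∃ x : V, J x = y := by
    intro y
    have h1 : y ∈ LinearMap.range JV.toLinearMap := by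
      rw [htop]
      exact Submodule.mem_top
    obtain ⟨x, hx⟩ := h1
    exact ⟨x, hx⟩
  obtain ⟨g, hg⟩ := hsurj (fourierLp (T := 1) 2 0)
  have hgc : inner ℂ c (g : H) = 0 := (hV _).1 g.2
  have hcn : ∀ n : ℤ, (U ^ n) c = c := by
    have hc' : U⁻¹ c = c := by
      have h1 : U⁻¹ (U c) = c := U.symm_apply_apply c
      rwa [hc] at h1
    intro n
    induction n using Int.induction_on with
    | zero => rfl
    | succ n ih =>
      rw [zpow_add_one]
      change (U ^ (n : ℤ)) (U c) = c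
      rw [hc, ih]
    | pred n ih =>
      rw [zpow_sub_one]
      change (U ^ (-(n : ℤ))) (U⁻¹ c) = c
      rw [hc', ih]
  have hperp : ∀ n : ℤ, inner ℂ c ((U ^ n) (g : H)) = 0 := by
    intro n
    have h1 : inner ℂ ((U ^ n) c) ((U ^ n) (g : H)) = inner ℂ c (g : H) :=
      LinearIsometryEquiv.inner_map_map _ _ _
    rw [hcn] at h1
    rw [h1, hgc]
  have hJn : ∀ n : ℤ, J ((U ^ n) (g : H)) = fourierLp (T := 1) 2 n := by
    intro n
    induction n using Int.induction_on with
    | zero => exact hg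
    | succ n ih =>
      have h1 : (U ^ ((n : ℤ) + 1)) (g : H) = U ((U ^ (n : ℤ)) (g : H)) := by
        rw [add_comm, zpow_one_add]
        rfl
      rw [h1, hJU, ih, Fin_wK_fourier]
    | pred n ih =>
      have h1 : U ((U ^ (-(n : ℤ) - 1)) (g : H)) = (U ^ (-(n : ℤ))) (g : H) := by
        have h2 : U * U ^ (-(n : ℤ) - 1) = U ^ (-(n : ℤ)) := by
          rw [← zpow_one_add]
          congr 1
          ring
        rw [← h2]
        rfl
      refine Fin_wK_inj ?_
      rw [← hJU, h1, ih, Fin_wK_fourier, sub_add_cancel]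
  refine ⟨g, hgc, ?_, ?_⟩
  · have hof := orthonormal_fourier (T := 1)
    rw [orthonormal_iff_ite] at hof ⊢
    intro m n
    rw [← hof m n, ← hJn m, ← hJn n]
    exact (JV.inner_map_map ⟨_, (hV _).2 (hperp m)⟩ ⟨_, (hV _).2 (hperp n)⟩).symm
  · intro x hx hxn
    have h1 : J x = 0 := by
      have h2 : (fourierBasis (T := 1)).repr (J x) = 0 := by
        refine lp.ext (funext fun n => ?_)
        rw [HilbertBasis.repr_apply_apply, coe_fourierBasis, ← hJn n]
        have h3 := JV.inner_map_map ⟨_, (hV _).2 (hperp n)⟩ ⟨x, (hV _).2 hx⟩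
        refine Eq.trans h3 ?_
        exact hxn n
      exact (LinearIsometryEquiv.map_eq_zero_iff _).1 h2
    have h2 := hiso x hx
    rw [h1, norm_zero] at h2
    exact norm_eq_zero.1 h2.symm

end Vale.Agent.P130H
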