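import Vale.Agent.Lib.P130H.B.Mul

/-! P130H part B: definitions. -/

namespace Vale.Agent.P130H

open MeasureTheory Filter Topology
open scoped ENNReal ComplexConjugate

/-- multiplication by a measurable function bounded by one -/
noncomputable def mulF (u : Ci → ℂ) (hu : Measurable u) (h1 : ∀ x, ‖u x‖ ≤ 1) : K2 →L[ℂ] K2 :=
  (exists_mul u hu h1).choose

theorem mulF_coe (u : Ci → ℂ) (hu : Measurable u) (h1 : ∀ x, ‖u x‖ ≤ 1) (g : K2) :
    (mulF u hu h1 g : Ci → ℂ) =ᵐ[haar] fun x => u x * g x :=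
  (exists_mul u hu h1).choose_spec.1 g

theorem norm_mulF_le (u : Ci → ℂ) (hu : Measurable u) (h1 : ∀ x, ‖u x‖ ≤ 1) (g : K2) :
    ‖mulF u hu h1 g‖ ≤ ‖g‖ :=
  (exists_mul u hu h1).choose_spec.2 g

/-- multiplication by the coordinate -/
noncomputable def wK : K2 →L[ℂ] K2 :=
  mulF (fun x => fourier 1 x) (fourier 1).continuous.measurable (fun x => by
    rw [fourier_apply, Circle.norm_coe])

theorem wK_coe (g : K2) : (wK g : Ci → ℂ) =ᵐ[haar] fun x => fourier 1 x * g x :=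
  mulF_coe _ _ _ g

/-- restriction to `Th t` -/
noncomputable def cut (t : ℝ) : K2 →L[ℂ] K2 :=
  mulF ((Th t).indicator fun _ => 1) (measurable_const.indicator (measurableSet_Th t)) (fun x => by
    unfold Set.indicator
    split_ifs <;> simp)

theorem cut_coe (t : ℝ) (g : K2) :
    (cut t g : Ci → ℂ) =ᵐ[haar] fun x => (Th t).indicator (fun _ => (1 : ℂ)) x * g x :=
  mulF_coe _ _ _ g

/-- the model vectors -/
noncomputable def bK (R : RO) (k i : ℕ) : K2 := MemLp.toLp _ (memLp_b R k i)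

theorem bK_coe (R : RO) (k i : ℕ) :
    (bK R k i : Ci → ℂ) =ᵐ[haar] fun x => fourier (i : ℤ) x * R.v k x :=
  MemLp.coeFn_toLp _

variable {H : Type} [NormedAddCommGroup H] [InnerProductSpace ℂ H]

/-- the partial isometries -/
noncomputable def Jk (R : RO) (U : H ≃ₗᵢ[ℂ] H) (f : ℕ → H) (k : ℕ) : H →L[ℂ] K2 :=
  ∑ i : Fin (R.h k), (innerSL ℂ (U^[(i : ℕ)] (f k))).smulRight (bK R k i)

theorem Jk_apply (R : RO) (U : H ≃ₗᵢ[ℂ] H) (f : ℕ → H) (k : ℕ) (g : H) :
    Jk R U f k g = ∑ i : Fin (R.h k), (inner ℂ (U^[(i : ℕ)] (f k)) g : ℂ) • bK R k i := by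
  unfold Jk
  rw [sum_apply]
  rfl

/-- the span of the levels of the tower `k` -/
def Sk (R : RO) (U : H ≃ₗᵢ[ℂ] H) (f : ℕ → H) (k : ℕ) : Submodule ℂ H :=
  Submodule.span ℂ (Set.range (fun i : Fin (R.h k) => U^[(i : ℕ)] (f k)))

end Vale.Agent.P130H
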