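import Vale.Agent.Lib.P130H.B.Fam

/-! P130H part B: levels of the tower k0 in the tower k. -/

namespace Vale.Agent.P130H

open MeasureTheory Filter Topology
open scoped ENNReal ComplexConjugate

variable {H : Type} [NormedAddCommGroup H] [InnerProductSpace ℂ H]

/-- heights: the copies fit -/
theorem pos_add_le (R : RO) (k j : ℕ) (hj : j < R.m k) : R.pos k j + R.h k < R.h (k + 1) := by
  have hmono : ∀ n a, a + n < R.m k → R.pos k a ≤ R.pos k (a + n) := by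
    intro n
    induction n with
    | zero => intro a _; exact le_rfl
    | succ n ih =>
      intro a ha
      have h1 := ih a (by omega)
      have h2 := R.step k (a + n) (by omega)
      have h3 : a + (n + 1) = a + n + 1 := by ring
      rw [h3]
      omega
  have h4 := hmono (R.m k - 1 - j) j (by omega)
  have h5 : j + (R.m k - 1 - j) = R.m k - 1 := by omega
  rw [h5] at h4
  have h6 := R.last k
  omega

theorem Expand_iter (U : H ≃ₗᵢ[ℂ] H) (n : ℕ) (c : ℂ) {ι : Type} (s : Finset ι) (g : ι → H) :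
    U^[n] (c • ∑ j ∈ s, g j) = c • ∑ j ∈ s, U^[n] (g j) := by
  induction n with
  | zero => rfl
  | succ n ih =>
    rw [Function.iterate_succ_apply', ih, map_smul, map_sum]
    simp only [Function.iterate_succ_apply']

theorem Expand_step {R : RO} {U : H ≃ₗᵢ[ℂ] H} {f : ℕ → H} (S : Sys R U f) (k₀ i : ℕ) :
    U^[i] (f k₀) = ((Real.sqrt (R.m k₀))⁻¹ : ℂ) •
      ∑ j ∈ Finset.range (R.m k₀), U^[i + R.pos k₀ j] (f (k₀ + 1)) := by
  conv_lhs => rw [S.recur k₀]
  rw [Expand_iter]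
  simp only [Function.iterate_add_apply]

theorem Expand_mem {R : RO} {U : H ≃ₗᵢ[ℂ] H} {f : ℕ → H} (S : Sys R U f) (n : ℕ) :
    ∀ k₀ i : ℕ, (i < R.h k₀ ∨ (0 < n ∧ i ≤ R.h k₀)) → U^[i] (f k₀) ∈ Sk R U f (k₀ + n) := by
  induction n with
  | zero =>
    intro k₀ i h
    have hi : i < R.h k₀ := by omega
    exact Submodule.subset_span ⟨⟨i, hi⟩, rfl⟩
  | succ n ih =>
    intro k₀ i h
    rw [Expand_step S]
    refine Submodule.smul_mem _ _ (Submodule.sum_mem _ fun j hj => ?_)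
    have h1 := pos_add_le R k₀ j (Finset.mem_range.mp hj)
    have h2 := ih (k₀ + 1) (i + R.pos k₀ j) (Or.inl (by omega))
    have h3 : k₀ + 1 + n = k₀ + (n + 1) := by ring
    rwa [h3] at h2

theorem level_mem {R : RO} {U : H ≃ₗᵢ[ℂ] H} {f : ℕ → H} (S : Sys R U f) (k₀ k i : ℕ)
    (h : (k₀ ≤ k ∧ i < R.h k₀) ∨ (k₀ < k ∧ i ≤ R.h k₀)) : U^[i] (f k₀) ∈ Sk R U f k := by
  have h1 := Expand_mem S (k - k₀) k₀ i (by omega)
  have h2 : k₀ + (k - k₀) = k := by omega
  rwa [h2] at h1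

theorem Expand_sum {ι : Type} (s : Finset ι) (G : ι → K2) (F : ι → Ci → ℂ)
    (h : ∀ j ∈ s, (G j : Ci → ℂ) =ᵐ[haar] F j) :
    ((∑ j ∈ s, G j : K2) : Ci → ℂ) =ᵐ[haar] fun x => ∑ j ∈ s, F j x := by
  classical
  induction s using Finset.induction_on with
  | empty =>
    simp only [Finset.sum_empty]
    exact Lp.coeFn_zero _ _ _
  | insert a s ha ih =>
    have h1 := ih fun j hj => h j (Finset.mem_insert_of_mem hj)
    have h2 := h a (Finset.mem_insert_self a s)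
    rw [Finset.sum_insert ha]
    filter_upwards [Lp.coeFn_add (G a) (∑ j ∈ s, G j), h1, h2] with x hx hx1 hx2
    rw [hx, Pi.add_apply, hx1, hx2, Finset.sum_insert ha]

theorem Expand_main {R : RO} {U : H ≃ₗᵢ[ℂ] H} {f : ℕ → H} (S : Sys R U f) (n : ℕ) :
    ∀ k₀ i : ℕ, (i < R.h k₀ ∨ (0 < n ∧ i ≤ R.h k₀)) →
      (Jk R U f (k₀ + n) (U^[i] (f k₀)) : Ci → ℂ) =ᵐ[haar]
      fun x => fourier (i : ℤ) x * (∏ j ∈ Finset.Ico k₀ (k₀ + n), R.p j x) * R.v (k₀ + n) x := by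
  induction n with
  | zero =>
    intro k₀ i h
    have hi : i < R.h k₀ := by omega
    have h1 : k₀ + 0 = k₀ := rfl
    rw [h1, Jk_level S k₀ i hi]
    filter_upwards [bK_coe R k₀ i] with x hx
    rw [hx, Finset.Ico_self, Finset.prod_empty, mul_one]
  | succ n ih =>
    intro k₀ i h
    rw [Expand_step S, map_smul, map_sum]
    have h3 : k₀ + 1 + n = k₀ + (n + 1) := by ring
    have h2 : ∀ j ∈ Finset.range (R.m k₀),
        (Jk R U f (k₀ + (n + 1)) (U^[i + R.pos k₀ j] (f (k₀ + 1))) : Ci → ℂ) =ᵐ[haar]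
        fun x => fourier ((i + R.pos k₀ j : ℕ) : ℤ) x *
          (∏ j ∈ Finset.Ico (k₀ + 1) (k₀ + (n + 1)), R.p j x) * R.v (k₀ + (n + 1)) x := by
      intro j hj
      have h1 := pos_add_le R k₀ j (Finset.mem_range.mp hj)
      have h4 := ih (k₀ + 1) (i + R.pos k₀ j) (Or.inl (by omega))
      rwa [h3] at h4
    filter_upwards [Lp.coeFn_smul ((Real.sqrt (R.m k₀))⁻¹ : ℂ)
      (∑ j ∈ Finset.range (R.m k₀), Jk R U f (k₀ + (n + 1)) (U^[i + R.pos k₀ j] (f (k₀ + 1)))),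
      Expand_sum _ _ _ h2] with x hx hx2
    rw [hx, Pi.smul_apply, hx2, Finset.prod_eq_prod_Ico_succ_bot (by omega : k₀ < k₀ + (n + 1))]
    have h5 : R.p k₀ x = ((Real.sqrt (R.m k₀))⁻¹ : ℂ) *
        ∑ j ∈ Finset.range (R.m k₀), fourier (R.pos k₀ j : ℤ) x := by
      unfold RO.p
      rw [ContinuousMap.smul_apply, ContinuousMap.sum_apply, smul_eq_mul]
    rw [h5, smul_eq_mul]
    have h6 : ∀ j, fourier ((i + R.pos k₀ j : ℕ) : ℤ) x =
        fourier (i : ℤ) x * fourier (R.pos k₀ j : ℤ) x := by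
      intro j
      rw [Nat.cast_add, fourier_add]
    simp only [h6]
    rw [← Finset.sum_mul, ← Finset.sum_mul, ← Finset.mul_sum]
    ring

/-- induction on `k` with `Sys.recur`, linearity and `Jk_level` -/
theorem Jk_expand {R : RO} {U : H ≃ₗᵢ[ℂ] H} {f : ℕ → H} (S : Sys R U f) (k₀ k i : ℕ)
    (h : (k₀ ≤ k ∧ i < R.h k₀) ∨ (k₀ < k ∧ i ≤ R.h k₀)) :
    (Jk R U f k (U^[i] (f k₀)) : Ci → ℂ) =ᵐ[haar]
      fun x => fourier (i : ℤ) x * (∏ j ∈ Finset.Ico k₀ k, R.p j x) * R.v k x := by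
  have h1 := Expand_main S (k - k₀) k₀ i (by omega)
  have h2 : k₀ + (k - k₀) = k := by omega
  rwa [h2] at h1

end Vale.Agent.P130H
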