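import Vale.Agent.Lib.P130H.B.BDefs
import Vale.Agent.Lib.P130.Limit

/-! P130H part B: the model family is orthonormal, the maps are contractions. -/

namespace Vale.Agent.P130H

open MeasureTheory Filter Topology
open scoped ENNReal ComplexConjugate

variable {H : Type} [NormedAddCommGroup H] [InnerProductSpace ℂ H]

private theorem Fam_inner (R : RO) (k i i' : ℕ) :
    (inner ℂ (bK R k i) (bK R k i') : ℂ) =
      inner ℂ (fourierLp (T := (1 : ℝ)) 2 (i : ℤ)) (fourierLp (T := (1 : ℝ)) 2 (i' : ℤ)) := by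
  rw [MeasureTheory.L2.inner_def, MeasureTheory.L2.inner_def]
  refine integral_congr_ae ?_
  filter_upwards [bK_coe R k i, bK_coe R k i', coeFn_fourierLp (T := (1 : ℝ)) 2 (i : ℤ),
    coeFn_fourierLp (T := (1 : ℝ)) 2 (i' : ℤ)] with x h1 h2 h3 h4
  have hv : conj (R.v k x) * R.v k x = 1 := by
    rw [RCLike.conj_mul, norm_v]
    norm_num
  rw [h1, h2, h3, h4, RCLike.inner_apply, RCLike.inner_apply, map_mul]
  linear_combination (fourier (i' : ℤ) x * conj (fourier (i : ℤ) x)) * hv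

theorem orthonormal_bK (R : RO) (k : ℕ) : Orthonormal ℂ (fun i : Fin (R.h k) => bK R k i) := by
  rw [orthonormal_iff_ite]
  intro i i'
  rw [Fam_inner, (orthonormal_iff_ite.1 (orthonormal_fourier (T := (1 : ℝ)))) (i : ℤ) (i' : ℤ)]
  have h : (((i : ℕ) : ℤ) = ((i' : ℕ) : ℤ)) ↔ i = i' := by
    rw [Nat.cast_inj, Fin.val_inj]
  simp only [h]

private theorem Fam_eq (R : RO) (U : H ≃ₗᵢ[ℂ] H) (f : ℕ → H) (k : ℕ) :
    Jk R U f k = _root_.P130.pJ (fun i : Fin (R.h k) => U^[(i : ℕ)] (f k))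
      (fun i : Fin (R.h k) => bK R k i) := rfl

theorem norm_Jk_le {R : RO} {U : H ≃ₗᵢ[ℂ] H} {f : ℕ → H} (S : Sys R U f) (k : ℕ) (g : H) :
    ‖Jk R U f k g‖ ≤ ‖g‖ := by
  rw [Fam_eq]
  exact _root_.P130.norm_pJ_le _ _ (S.orth k) (orthonormal_bK R k) g

theorem norm_Jk_eq {R : RO} {U : H ≃ₗᵢ[ℂ] H} {f : ℕ → H} (S : Sys R U f) (k : ℕ) (g : H)
    (hg : g ∈ Sk R U f k) : ‖Jk R U f k g‖ = ‖g‖ := by
  rw [Fam_eq]
  exact _root_.P130.norm_pJ_eq _ _ (S.orth k) (orthonormal_bK R k) g hg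

theorem Jk_level {R : RO} {U : H ≃ₗᵢ[ℂ] H} {f : ℕ → H} (S : Sys R U f) (k i : ℕ)
    (hi : i < R.h k) : Jk R U f k (U^[i] (f k)) = bK R k i := by
  classical
  rw [Jk_apply, Finset.sum_eq_single (⟨i, hi⟩ : Fin (R.h k))]
  · have h1 := orthonormal_iff_ite.1 (S.orth k) ⟨i, hi⟩ ⟨i, hi⟩
    rw [if_pos rfl] at h1
    rw [h1, one_smul]
  · intro j _ hj
    have h1 := orthonormal_iff_ite.1 (S.orth k) j ⟨i, hi⟩
    rw [if_neg hj] at h1
    rw [h1, zero_smul]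
  · intro h
    exact absurd (Finset.mem_univ _) h

end Vale.Agent.P130H
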