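import Vale.Agent.Lib.P130H.B.Expand

/-! P130H part B: intertwining and defect. -/

namespace Vale.Agent.P130H

open MeasureTheory Filter Topology
open scoped ENNReal ComplexConjugate

variable {H : Type} [NormedAddCommGroup H] [InnerProductSpace ℂ H]

variable [CompleteSpace H]

theorem Inter_norm_sq (g : K2) : ‖g‖ ^ 2 = ∫ x, ‖g x‖ ^ 2 ∂haar := by
  have h1 := @inner_self_eq_norm_sq ℂ _ _ _ _ g
  rw [← h1, L2.inner_def, ← integral_re (L2.integrable_inner g g)]
  refine integral_congr_ae (Eventually.of_forall fun x => ?_)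
  exact inner_self_eq_norm_sq (𝕜 := ℂ) (g x)

/-- two elements of `K2` with the same cut offs are equal -/
theorem eq_of_cut {a b : K2} (h : ∀ t : ℝ, 0 < t → t < 1 / 2 → cut t a = cut t b) : a = b := by
  rw [← sub_eq_zero, ← norm_eq_zero, ← sq_eq_zero_iff]
  have h1 := tendsto_Th (a - b)
  have h2 : ∀ n : ℕ, ∫ x in (Th (1 / ((n : ℝ) + 3)))ᶜ, ‖(a - b : K2) x‖ ^ 2 ∂haar =
      ‖a - b‖ ^ 2 := by
    intro n
    have hn : (0 : ℝ) < 1 / ((n : ℝ) + 3) := by positivity
    have hn2 : 1 / ((n : ℝ) + 3) < 1 / 2 := by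
      rw [div_lt_div_iff₀ (by positivity) (by norm_num)]
      have : (0 : ℝ) ≤ n := Nat.cast_nonneg n
      linarith
    have h3 : cut (1 / ((n : ℝ) + 3)) (a - b) = 0 := by
      rw [map_sub, h _ hn hn2, sub_self]
    have h4 := cut_coe (1 / ((n : ℝ) + 3)) (a - b)
    rw [h3] at h4
    rw [Inter_norm_sq, ← integral_indicator (measurableSet_Th _).compl]
    refine integral_congr_ae ?_
    filter_upwards [h4, Lp.coeFn_zero ℂ 2 haar] with x hx hx0
    rw [hx0] at hx
    by_cases hm : x ∈ Th (1 / ((n : ℝ) + 3))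
    · rw [Set.indicator_of_mem hm, one_mul] at hx
      rw [Set.indicator_of_notMem (by simpa using hm), ← hx]
      simp
    · rw [Set.indicator_of_mem (by simpa using hm)]
  simp_rw [h2] at h1
  exact tendsto_nhds_unique tendsto_const_nhds h1

theorem norm_wK (g : K2) : ‖wK g‖ = ‖g‖ := by
  have h1 : ‖wK g‖ ^ 2 = ‖g‖ ^ 2 := by
    rw [Inter_norm_sq, Inter_norm_sq]
    refine integral_congr_ae ?_
    filter_upwards [wK_coe g] with x hx
    rw [hx, norm_mul, fourier_apply, Circle.norm_coe, one_mul]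
  exact (pow_left_inj₀ (norm_nonneg _) (norm_nonneg _) two_ne_zero).1 h1

theorem Jk_U {R : RO} {U : H ≃ₗᵢ[ℂ] H} {f : ℕ → H} (S : Sys R U f) (k₀ k : ℕ) (hk : k₀ < k)
    (g : H) (hg : g ∈ Sk R U f k₀) : Jk R U f k (U g) = wK (Jk R U f k g) := by
  unfold Sk at hg
  induction hg using Submodule.span_induction with
  | mem x hx =>
    obtain ⟨i, rfl⟩ := hx
    change Jk R U f k (U (U^[(i : ℕ)] (f k₀))) = wK (Jk R U f k (U^[(i : ℕ)] (f k₀)))
    rw [← Function.iterate_succ_apply' U]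
    apply Lp.ext
    have h1 := Jk_expand S k₀ k ((i : ℕ) + 1) (Or.inr ⟨hk, i.2⟩)
    have h2 := Jk_expand S k₀ k (i : ℕ) (Or.inl ⟨hk.le, i.2⟩)
    filter_upwards [h1, h2, wK_coe (Jk R U f k (U^[(i : ℕ)] (f k₀)))] with x h1 h2 h3
    rw [h1, h3, h2]
    push_cast
    rw [fourier_add]
    ring
  | zero => simp
  | add x y _ _ hx hy => rw [map_add, map_add, map_add, map_add, hx, hy]
  | smul c x _ hx => rw [map_smul, map_smul, map_smul, map_smul, hx]

theorem U_mem_Sk {R : RO} {U : H ≃ₗᵢ[ℂ] H} {f : ℕ → H} (S : Sys R U f) (k₀ k : ℕ) (hk : k₀ < k)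
    (g : H) (hg : g ∈ Sk R U f k₀) : U g ∈ Sk R U f k ∧ g ∈ Sk R U f k := by
  unfold Sk at hg
  induction hg using Submodule.span_induction with
  | mem x hx =>
    obtain ⟨i, rfl⟩ := hx
    change U (U^[(i : ℕ)] (f k₀)) ∈ Sk R U f k ∧ U^[(i : ℕ)] (f k₀) ∈ Sk R U f k
    rw [← Function.iterate_succ_apply' U]
    exact ⟨level_mem S k₀ k _ (Or.inr ⟨hk, i.2⟩), level_mem S k₀ k _ (Or.inl ⟨hk.le, i.2⟩)⟩
  | zero => simp
  | add x y _ _ hx hy =>
    rw [map_add]
    exact ⟨add_mem hx.1 hy.1, add_mem hx.2 hy.2⟩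
  | smul c x _ hx =>
    rw [map_smul]
    exact ⟨Submodule.smul_mem _ _ hx.1, Submodule.smul_mem _ _ hx.2⟩

theorem Inter_cut_wK (t : ℝ) (g : K2) : cut t (wK g) = wK (cut t g) := by
  apply Lp.ext
  filter_upwards [cut_coe t (wK g), wK_coe (cut t g), cut_coe t g, wK_coe g] with x h1 h2 h3 h4
  rw [h1, h2, h3, h4]
  ring

theorem J_U {R : RO} {U : H ≃ₗᵢ[ℂ] H} {f : ℕ → H} (S : Sys R U f) (J : H →L[ℂ] K2)
    (hJ : ∀ t : ℝ, 0 < t → t < 1 / 2 → ∀ g,
      Tendsto (fun k => cut t (Jk R U f k g)) atTop (𝓝 (cut t (J g)))) (g : H) :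
    J (U g) = wK (J g) := by
  have h1 : ∀ k₀, ∀ g ∈ Sk R U f k₀, J (U g) = wK (J g) := by
    intro k₀ g hg
    apply eq_of_cut
    intro t ht ht2
    have h2 := hJ t ht ht2 (U g)
    have h3 : Tendsto (fun k => wK (cut t (Jk R U f k g))) atTop (𝓝 (wK (cut t (J g)))) :=
      (wK.continuous.tendsto _).comp (hJ t ht ht2 g)
    have h4 : (fun k => cut t (Jk R U f k (U g))) =ᶠ[atTop]
        fun k => wK (cut t (Jk R U f k g)) := by
      filter_upwards [eventually_gt_atTop k₀] with k hk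
      rw [Jk_U S k₀ k hk g hg, Inter_cut_wK]
    rw [Inter_cut_wK]
    exact tendsto_nhds_unique (h2.congr' h4) h3
  have h5 : IsClosed {g : H | J (U g) = wK (J g)} :=
    isClosed_eq (J.continuous.comp U.continuous) (wK.continuous.comp J.continuous)
  have h6 : g ∈ (⨆ k, Sk R U f k).topologicalClosure := by
    have := S.dense
    unfold Sk
    rw [this]
    exact Submodule.mem_top
  have h7 : ((⨆ k, Sk R U f k : Submodule ℂ H) : Set H) ⊆ {g : H | J (U g) = wK (J g)} := by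
    intro x hx
    induction hx using Submodule.iSup_induction' with
    | mem i x hx => exact h1 i x hx
    | zero => simp
    | add x y _ _ hx hy =>
      change J (U (x + y)) = wK (J (x + y))
      rw [map_add, map_add, map_add, map_add, hx, hy]
  exact (h5.closure_subset_iff.2 h7) h6

end Vale.Agent.P130H
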