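import Vale.Agent.Lib.P130H.B.Step

/-! P130H part B: the limit operator. -/

namespace Vale.Agent.P130H

open MeasureTheory Filter Topology
open scoped ENNReal ComplexConjugate

variable {H : Type} [NormedAddCommGroup H] [InnerProductSpace ℂ H]

private theorem Lim_Th_mono {s t : ℝ} (h : s ≤ t) : Th t ⊆ Th s := by
  refine Set.image_mono (Set.Icc_subset_Icc h ?_)
  linarith

private theorem Lim_norm_cut (t : ℝ) (g : K2) : ‖cut t g‖ ≤ ‖g‖ := norm_mulF_le _ _ _ g

/-- cutting twice -/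
private theorem Lim_cut_cut {s t : ℝ} (h : s ≤ t) (g : K2) : cut t (cut s g) = cut t g := by
  apply Lp.ext
  filter_upwards [cut_coe t (cut s g), cut_coe s g, cut_coe t g] with x h1 h2 h3
  rw [h1, h2, h3]
  by_cases hx : x ∈ Th t
  · rw [Set.indicator_of_mem hx, Set.indicator_of_mem (Lim_Th_mono h hx), one_mul]
  · rw [Set.indicator_of_notMem hx, zero_mul, zero_mul]

private theorem Lim_inner (t : ℝ) (g : K2) : inner ℂ (cut t g) (g - cut t g) = 0 := by
  rw [L2.inner_def]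
  rw [integral_congr_ae (g := fun _ => (0 : ℂ))]
  · simp
  · filter_upwards [cut_coe t g, Lp.coeFn_sub g (cut t g)] with x h1 h2
    rw [h2, Pi.sub_apply, h1]
    by_cases hx : x ∈ Th t
    · rw [Set.indicator_of_mem hx, one_mul, sub_self, inner_zero_right]
    · rw [Set.indicator_of_notMem hx, zero_mul, inner_zero_left]

/-- Pythagoras -/
private theorem Lim_pyth (t : ℝ) (g : K2) : ‖g - cut t g‖ ^ 2 = ‖g‖ ^ 2 - ‖cut t g‖ ^ 2 := by
  have h1 := norm_add_sq (𝕜 := ℂ) (cut t g) (g - cut t g)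
  rw [Lim_inner, add_sub_cancel] at h1
  simp only [map_zero, mul_zero, add_zero] at h1
  linarith

/-- pointwise limits of contractions -/
private theorem Lim_op (A : ℕ → H →L[ℂ] K2) (hA : ∀ k g, ‖A k g‖ ≤ ‖g‖)
    (hc : ∀ g, CauchySeq (fun k => A k g)) :
    ∃ J : H →L[ℂ] K2, (∀ g, ‖J g‖ ≤ ‖g‖) ∧ ∀ g, Tendsto (fun k => A k g) atTop (𝓝 (J g)) := by
  choose j hj using fun g => cauchySeq_tendsto_of_complete (hc g)
  have hn : ∀ g, ‖j g‖ ≤ ‖g‖ := fun g =>
    le_of_tendsto' (hj g).norm fun k => hA k g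
  let J0 : H →ₗ[ℂ] K2 :=
    { toFun := j
      map_add' := by
        intro x y
        refine tendsto_nhds_unique (hj (x + y)) ?_
        have := (hj x).add (hj y)
        simpa only [map_add] using this
      map_smul' := by
        intro c x
        refine tendsto_nhds_unique (hj (c • x)) ?_
        have := (hj x).const_smul c
        simpa only [map_smul, RingHom.id_apply] using this }
  refine ⟨J0.mkContinuous 1 fun x => by rw [one_mul]; exact hn x, fun g => hn g, fun g => hj g⟩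

private theorem Lim_cauchy (B : ℕ → H →L[ℂ] K2) (hB : ∀ k g, ‖B k g‖ ≤ ‖g‖)
    (D : Set H) (hD : (Submodule.span ℂ D).topologicalClosure = ⊤)
    (hc : ∀ g ∈ D, CauchySeq (fun k => B k g)) (g : H) : CauchySeq (fun k => B k g) := by
  have hs : ∀ x ∈ Submodule.span ℂ D, CauchySeq (fun k => B k x) := by
    intro x hx
    induction hx using Submodule.span_induction with
    | mem x h => exact hc x h
    | zero => simpa only [map_zero] using cauchySeq_const (0 : K2)
    | add x y _ _ h1 h2 =>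
      simp only [map_add]
      exact h1.add h2
    | smul a x _ h1 =>
      simp only [map_smul]
      exact (uniformContinuous_const_smul a).comp_cauchySeq h1
  have hg : g ∈ closure (Submodule.span ℂ D : Set H) := by
    have h1 : g ∈ (Submodule.span ℂ D).topologicalClosure := by
      rw [hD]; exact Submodule.mem_top
    exact h1
  rw [Metric.cauchySeq_iff']
  intro ε hε
  obtain ⟨x, hx, hxg⟩ := Metric.mem_closure_iff.1 hg (ε / 3) (by positivity)
  obtain ⟨N, hN⟩ := Metric.cauchySeq_iff'.1 (hs x hx) (ε / 3) (by positivity)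
  refine ⟨N, fun n hn => ?_⟩
  have h1 : dist (B n g) (B n x) ≤ dist g x := by
    rw [dist_eq_norm, dist_eq_norm, ← map_sub]
    exact hB n _
  have h2 : dist (B N x) (B N g) ≤ dist g x := by
    rw [dist_comm, dist_eq_norm, dist_eq_norm, ← map_sub]
    exact hB N _
  have h3 := hN n hn
  have h4 := dist_triangle4 (B n g) (B n x) (B N x) (B N g)
  linarith

/-- abstract: uniformly bounded operators whose cut offs converge on a set with dense span -/
theorem exists_limit_op [CompleteSpace H] (A : ℕ → H →L[ℂ] K2) (hA : ∀ k g, ‖A k g‖ ≤ ‖g‖)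
    (D : Set H) (hD : (Submodule.span ℂ D).topologicalClosure = ⊤)
    (hc : ∀ g ∈ D, ∀ t : ℝ, 0 < t → t < 1 / 2 → CauchySeq (fun k => cut t (A k g))) :
    ∃ J : H →L[ℂ] K2, (∀ g, ‖J g‖ ≤ ‖g‖) ∧ ∀ t : ℝ, 0 < t → t < 1 / 2 → ∀ g,
      Tendsto (fun k => cut t (A k g)) atTop (𝓝 (cut t (J g))) := by
  have h1 : ∀ t : ℝ, 0 < t → t < 1 / 2 → ∃ L : H →L[ℂ] K2, (∀ g, ‖L g‖ ≤ ‖g‖) ∧
      ∀ g, Tendsto (fun k => cut t (A k g)) atTop (𝓝 (L g)) := by
    intro t ht ht2
    have hB : ∀ k g, ‖((cut t).comp (A k)) g‖ ≤ ‖g‖ := fun k g =>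
      (Lim_norm_cut t _).trans (hA k g)
    exact Lim_op (fun k => (cut t).comp (A k)) hB
      (Lim_cauchy _ hB D hD fun g hg => hc g hg t ht ht2)
  have ht0 : ∀ n : ℕ, 0 < 1 / ((n : ℝ) + 3) := fun n => by positivity
  have ht1 : ∀ n : ℕ, 1 / ((n : ℝ) + 3) < 1 / 2 := fun n => by
    have : (0 : ℝ) ≤ n := Nat.cast_nonneg n
    exact one_div_lt_one_div_of_lt (by norm_num) (by linarith)
  have htm : ∀ n m : ℕ, n ≤ m → 1 / ((m : ℝ) + 3) ≤ 1 / ((n : ℝ) + 3) := by
    intro n m hnm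
    have : (n : ℝ) ≤ m := by exact_mod_cast hnm
    exact one_div_le_one_div_of_le (by positivity) (by linarith)
  choose L hL1 hL2 using fun n : ℕ => h1 (1 / ((n : ℝ) + 3)) (ht0 n) (ht1 n)
  have hLL : ∀ n m : ℕ, n ≤ m → ∀ g, cut (1 / ((n : ℝ) + 3)) (L m g) = L n g := by
    intro n m hnm g
    refine tendsto_nhds_unique ?_ (hL2 n g)
    have h2 := ((cut (1 / ((n : ℝ) + 3))).continuous.tendsto (L m g)).comp (hL2 m g)
    refine h2.congr fun k => ?_
    exact Lim_cut_cut (htm n m hnm) (A k g)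
  have hpy : ∀ n m : ℕ, n ≤ m → ∀ g, ‖L m g - L n g‖ ^ 2 = ‖L m g‖ ^ 2 - ‖L n g‖ ^ 2 := by
    intro n m hnm g
    have h2 := Lim_pyth (1 / ((n : ℝ) + 3)) (L m g)
    rwa [hLL n m hnm g] at h2
  have hcL : ∀ g, CauchySeq (fun n => L n g) := by
    intro g
    have hmono : Monotone fun n => ‖L n g‖ ^ 2 := by
      intro n m hnm
      have h2 := hpy n m hnm g
      have h3 := sq_nonneg ‖L m g - L n g‖
      simp only
      linarith
    have hbdd : BddAbove (Set.range fun n => ‖L n g‖ ^ 2) := by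
      refine ⟨‖g‖ ^ 2, ?_⟩
      rintro _ ⟨n, rfl⟩
      exact pow_le_pow_left₀ (norm_nonneg _) (hL1 n g) 2
    have hcs : CauchySeq fun n => ‖L n g‖ ^ 2 := (tendsto_atTop_ciSup hmono hbdd).cauchySeq
    rw [Metric.cauchySeq_iff']
    intro ε hε
    obtain ⟨N, hN⟩ := Metric.cauchySeq_iff'.1 hcs (ε ^ 2) (by positivity)
    refine ⟨N, fun n hn => ?_⟩
    have h2 := hN n hn
    rw [Real.dist_eq] at h2
    rw [dist_eq_norm]
    have h3 := hpy N n hn g
    have h4 : ‖L n g - L N g‖ ^ 2 < ε ^ 2 := by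
      rw [h3]
      exact (le_abs_self _).trans_lt h2
    exact lt_of_pow_lt_pow_left₀ 2 hε.le h4
  obtain ⟨J, hJ1, hJ2⟩ := Lim_op L hL1 hcL
  refine ⟨J, hJ1, fun t ht ht2 g => ?_⟩
  obtain ⟨n, hn⟩ : ∃ n : ℕ, 1 / ((n : ℝ) + 3) ≤ t := by
    obtain ⟨n, hn⟩ := exists_nat_one_div_lt ht
    refine ⟨n, le_trans ?_ hn.le⟩
    exact one_div_le_one_div_of_le (by positivity) (by linarith)
  have hJn : cut (1 / ((n : ℝ) + 3)) (J g) = L n g := by
    refine tendsto_nhds_unique
      (((cut (1 / ((n : ℝ) + 3))).continuous.tendsto (J g)).comp (hJ2 g)) ?_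
    refine tendsto_const_nhds.congr' ?_
    filter_upwards [eventually_ge_atTop n] with m hm
    exact (hLL n m hm g).symm
  have h5 := ((cut t).continuous.tendsto (L n g)).comp (hL2 n g)
  rw [← hJn, Lim_cut_cut hn] at h5
  refine h5.congr fun k => ?_
  exact Lim_cut_cut hn (A k g)

theorem exists_J [CompleteSpace H] {R : RO} (hR : R.Flat) {U : H ≃ₗᵢ[ℂ] H} {f : ℕ → H}
    (S : Sys R U f) :
    ∃ J : H →L[ℂ] K2, (∀ g, ‖J g‖ ≤ ‖g‖) ∧ ∀ t : ℝ, 0 < t → t < 1 / 2 → ∀ g,
      Tendsto (fun k => cut t (Jk R U f k g)) atTop (𝓝 (cut t (J g))) := by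
  refine exists_limit_op (fun k => Jk R U f k) (fun k g => norm_Jk_le S k g)
    {x | ∃ k₀ i, i < R.h k₀ ∧ x = U^[i] (f k₀)} ?_ ?_
  · refine top_le_iff.1 ?_
    rw [← S.dense]
    refine Submodule.topologicalClosure_mono (iSup_le fun k => Submodule.span_mono ?_)
    rintro _ ⟨i, rfl⟩
    exact ⟨k, i, i.2, rfl⟩
  · rintro g ⟨k₀, i, hi, rfl⟩ t ht ht2
    obtain ⟨d, hd, hd0, hd1⟩ := hR t ht ht2
    have hstep : ∀ k, k₀ ≤ k → dist (cut t (Jk R U f k (U^[i] (f k₀))))
        (cut t (Jk R U f (k + 1) (U^[i] (f k₀)))) ≤ d k := by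
      intro k hk
      rw [dist_comm, dist_eq_norm, ← map_sub]
      refine le_of_sq_le_sq ?_ (hd0 k)
      exact (norm_cut_step S k₀ k i hk hi t).trans (hd1 k₀ k hk)
    have hsh : CauchySeq fun n => cut t (Jk R U f (n + k₀) (U^[i] (f k₀))) := by
      refine cauchySeq_of_dist_le_of_summable (fun n => d (n + k₀)) (fun n => ?_)
        ((summable_nat_add_iff k₀).2 hd)
      have h1 := hstep (n + k₀) (Nat.le_add_left _ _)
      rwa [show n.succ + k₀ = n + k₀ + 1 by omega]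
    obtain ⟨a, ha⟩ := cauchySeq_tendsto_of_complete hsh
    exact ((tendsto_add_atTop_iff_nat (f := fun n => cut t (Jk R U f n (U^[i] (f k₀))))
      k₀).1 ha).cauchySeq

end Vale.Agent.P130H
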