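import Vale.Agent.Lib.P130H.Defs

/-! P130H part B: multiplication operators on `L²` of the circle. -/

namespace Vale.Agent.P130H

open MeasureTheory Filter Topology
open scoped ENNReal ComplexConjugate

theorem Mul_isClosed_Th (t : ℝ) : IsClosed (Th t) := by
  have hc : Continuous (fun s : ℝ => (s : Ci)) := AddCircle.continuous_mk' 1
  exact (isCompact_Icc.image hc).isClosed

theorem measurableSet_Th (t : ℝ) : MeasurableSet (Th t) :=
  (Mul_isClosed_Th t).measurableSet

/-- multiplication by a measurable function bounded by one -/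
theorem exists_mul (u : Ci → ℂ) (hu : Measurable u) (h1 : ∀ x, ‖u x‖ ≤ 1) :
    ∃ A : K2 →L[ℂ] K2, (∀ g : K2, (A g : Ci → ℂ) =ᵐ[haar] fun x => u x * g x) ∧
      ∀ g, ‖A g‖ ≤ ‖g‖ := by
  have hmem : ∀ g : K2, MemLp (fun x => u x * g x) 2 haar := by
    intro g
    refine (Lp.memLp g).of_le (hu.aestronglyMeasurable.mul (Lp.aestronglyMeasurable g)) ?_
    refine Eventually.of_forall fun x => ?_
    rw [norm_mul]
    exact mul_le_of_le_one_left (norm_nonneg _) (h1 x)
  have hnorm : ∀ g : K2, ‖(hmem g).toLp‖ ≤ ‖g‖ := by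
    intro g
    refine Lp.norm_le_norm_of_ae_le ?_
    filter_upwards [MemLp.coeFn_toLp (hmem g)] with x hx
    rw [hx, norm_mul]
    exact mul_le_of_le_one_left (norm_nonneg _) (h1 x)
  obtain ⟨L, hL⟩ : ∃ L : K2 →ₗ[ℂ] K2, ∀ g, L g = (hmem g).toLp := by
    refine ⟨{ toFun := fun g => (hmem g).toLp, map_add' := ?_, map_smul' := ?_ }, fun g => rfl⟩
    · intro g h
      refine Lp.ext ?_
      filter_upwards [MemLp.coeFn_toLp (hmem (g + h)), MemLp.coeFn_toLp (hmem g),
        MemLp.coeFn_toLp (hmem h), Lp.coeFn_add g h,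
        Lp.coeFn_add (hmem g).toLp (hmem h).toLp] with x e1 e2 e3 e4 e5
      rw [e1, e4, e5, Pi.add_apply, Pi.add_apply, e2, e3, mul_add]
    · intro c g
      refine Lp.ext ?_
      filter_upwards [MemLp.coeFn_toLp (hmem (c • g)), MemLp.coeFn_toLp (hmem g),
        Lp.coeFn_smul c g, Lp.coeFn_smul c (hmem g).toLp] with x e1 e2 e4 e5
      rw [e1, e4, RingHom.id_apply, e5, Pi.smul_apply, Pi.smul_apply, e2, smul_eq_mul,
        smul_eq_mul]
      ring
  refine ⟨L.mkContinuous 1 fun g => ?_, fun g => ?_, fun g => ?_⟩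
  · rw [hL, one_mul]
    exact hnorm g
  · rw [LinearMap.mkContinuous_apply, hL]
    exact MemLp.coeFn_toLp (hmem g)
  · rw [LinearMap.mkContinuous_apply, hL]
    exact hnorm g

theorem Mul_measurable_ph : Measurable ph := by
  unfold ph
  refine Measurable.ite (measurableSet_singleton 0) measurable_const ?_
  exact measurable_id.div (Complex.measurable_ofReal.comp measurable_norm)

theorem Mul_norm_ph (z : ℂ) : ‖ph z‖ = 1 := by
  unfold ph
  split_ifs with h
  · simp
  · rw [norm_div, Complex.norm_real, norm_norm, div_self (norm_ne_zero_iff.2 h)]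

theorem Mul_mul_conj_ph (z : ℂ) : z * conj (ph z) = (‖z‖ : ℂ) := by
  unfold ph
  split_ifs with h
  · simp [h]
  · have hz : (‖z‖ : ℂ) ≠ 0 := by exact_mod_cast norm_ne_zero_iff.2 h
    rw [map_div₀, Complex.conj_ofReal, ← mul_div_assoc, Complex.mul_conj', sq,
      mul_div_assoc, div_self hz, mul_one]

theorem measurable_v (R : RO) (k : ℕ) : Measurable (R.v k) := by
  induction k with
  | zero =>
    have h : R.v 0 = fun _ => (1 : ℂ) := by
      funext x
      simp [RO.v]
    rw [h]
    exact measurable_const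
  | succ k ih =>
    have h : R.v (k + 1) = fun x => R.v k x * conj (ph (R.p k x)) := by
      funext x
      simp [RO.v]
    rw [h]
    refine ih.mul ?_
    exact Complex.continuous_conj.measurable.comp
      (Mul_measurable_ph.comp (R.p k).continuous.measurable)

theorem norm_v (R : RO) (k : ℕ) (x : Ci) : ‖R.v k x‖ = 1 := by
  induction k with
  | zero => simp [RO.v]
  | succ k ih =>
    have h : R.v (k + 1) x = R.v k x * conj (ph (R.p k x)) := by
      simp [RO.v]
    rw [h, norm_mul, ih, one_mul, RCLike.norm_conj, Mul_norm_ph]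

theorem p_mul_v_succ (R : RO) (k : ℕ) (x : Ci) :
    R.p k x * R.v (k + 1) x = (‖R.p k x‖ : ℂ) * R.v k x := by
  have h : R.v (k + 1) x = R.v k x * conj (ph (R.p k x)) := by
    simp [RO.v]
  rw [h, mul_left_comm, Mul_mul_conj_ph, mul_comm]

theorem memLp_b (R : RO) (k i : ℕ) :
    MemLp (fun x : Ci => fourier (i : ℤ) x * R.v k x) 2 haar := by
  refine MemLp.of_bound ((fourier (i : ℤ)).continuous.measurable.mul
    (measurable_v R k)).aestronglyMeasurable 1 (Eventually.of_forall fun x => ?_)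
  rw [norm_mul, norm_v, mul_one, fourier_apply, Circle.norm_coe]

theorem Mul_nontrivial : Nontrivial Ci := by
  refine ⟨⟨((1 / 2 : ℝ) : Ci), 0, fun h => ?_⟩⟩
  rw [AddCircle.coe_eq_zero_iff] at h
  obtain ⟨n, hn⟩ := h
  rw [zsmul_eq_mul, mul_one] at hn
  have h2 : ((2 * n : ℤ) : ℝ) = ((1 : ℤ) : ℝ) := by
    push_cast
    linarith
  have h3 : (2 * n : ℤ) = 1 := by exact_mod_cast h2
  omega

theorem Mul_singleton : (haar : Measure Ci) {0} = 0 := by
  have h0 : Nontrivial Ci := Mul_nontrivial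
  have h1 : NullSingletonClass (haar : Measure Ci) :=
    Measure.IsAddHaarMeasure.nullSingletonClass _
  exact measure_singleton 0

/-- the circle minus the origin is exhausted by the sets `Th t` -/
theorem tendsto_Th (g : K2) : Tendsto (fun n : ℕ =>
    ∫ x in (Th (1 / ((n : ℝ) + 3)))ᶜ, ‖g x‖ ^ 2 ∂haar) atTop (𝓝 0) := by
  have hint : Integrable (fun x => ‖g x‖ ^ 2) haar := (Lp.memLp g).integrable_norm_pow (by norm_num)
  have h := tendsto_setIntegral_of_antitone (μ := haar)
    (s := fun n : ℕ => (Th (1 / ((n : ℝ) + 3)))ᶜ) (f := fun x => ‖g x‖ ^ 2)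
    (fun n => (measurableSet_Th _).compl) (fun n m hnm => by
      refine Set.compl_subset_compl.2 ?_
      have h1 : (1 : ℝ) / ((m : ℝ) + 3) ≤ 1 / ((n : ℝ) + 3) := by
        have : (n : ℝ) ≤ m := by exact_mod_cast hnm
        exact one_div_le_one_div_of_le (by positivity) (by linarith)
      exact Set.image_mono (Set.Icc_subset_Icc h1 (by linarith))) ⟨0, hint.integrableOn⟩
  have h0 : ∫ x in ⋂ n : ℕ, (Th (1 / ((n : ℝ) + 3)))ᶜ, ‖g x‖ ^ 2 ∂haar = 0 := by
    refine setIntegral_measure_zero _ ?_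
    refine measure_mono_null ?_ Mul_singleton
    intro x hx
    rw [Set.mem_iInter] at hx
    by_contra hx0
    rw [Set.mem_singleton_iff] at hx0
    obtain ⟨s, hs, rfl⟩ : ∃ s ∈ Set.Ico (0 : ℝ) 1, (s : Ci) = x := by
      have := AddCircle.coe_image_Ico_eq (1 : ℝ) 0
      have hx' : x ∈ (Set.univ : Set Ci) := Set.mem_univ x
      rw [← this, zero_add] at hx'
      exact hx'
    have hs0 : 0 < s := by
      rcases hs.1.lt_or_eq with h2 | h2
      · exact h2
      · refine absurd ?_ hx0
        rw [← h2]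
        rfl
    obtain ⟨n, hn⟩ := exists_nat_gt (1 / min s (1 - s))
    have hm : 0 < min s (1 - s) := lt_min hs0 (by linarith [hs.2])
    have h3 : 1 / ((n : ℝ) + 3) ≤ min s (1 - s) := by
      rw [div_le_iff₀ (by positivity)]
      rw [div_lt_iff₀ hm] at hn
      nlinarith
    refine hx n ⟨s, ⟨h3.trans (min_le_left _ _), ?_⟩, rfl⟩
    linarith [h3.trans (min_le_right _ _)]
  rw [h0] at h
  exact h

end Vale.Agent.P130H
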