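import Vale.Agent.Lib.P130H.B.Expand

/-! P130H part B: one step. -/

namespace Vale.Agent.P130H

open MeasureTheory Filter Topology
open scoped ENNReal ComplexConjugate

variable {H : Type} [NormedAddCommGroup H] [InnerProductSpace ℂ H]

private theorem Step_norm_sq (F : K2) : ‖F‖ ^ 2 = ∫ x, ‖F x‖ ^ 2 ∂haar := by
  have h1 : ((‖F‖ ^ 2 : ℝ) : ℂ) = inner ℂ F F := by
    rw [inner_self_eq_norm_sq_to_K]
    push_cast
    rfl
  rw [L2.inner_def] at h1
  have h2 : ∀ x : Ci, inner ℂ (F x) (F x) = ((‖F x‖ ^ 2 : ℝ) : ℂ) := by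
    intro x
    rw [inner_self_eq_norm_sq_to_K]
    push_cast
    rfl
  simp_rw [h2] at h1
  rw [integral_complex_ofReal] at h1
  exact_mod_cast h1

private theorem Step_cont_rho (R : RO) (k₀ k : ℕ) : Continuous (R.rho k₀ k) := by
  unfold RO.rho
  exact continuous_finsetProd _ fun i _ => ((R.p i).continuous.norm).pow 2

/-- `(|p|-1)^2 ≤ ||p|^2-1|` and `p_mul_v_succ` -/
theorem norm_cut_step {R : RO} {U : H ≃ₗᵢ[ℂ] H} {f : ℕ → H} (S : Sys R U f) (k₀ k i : ℕ)
    (hk : k₀ ≤ k) (hi : i < R.h k₀) (t : ℝ) :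
    ‖cut t (Jk R U f (k + 1) (U^[i] (f k₀)) - Jk R U f k (U^[i] (f k₀)))‖ ^ 2 ≤
      ∫ x in Th t, R.rho k₀ k x * |‖R.p k x‖ ^ 2 - 1| ∂haar := by
  set g : K2 := Jk R U f (k + 1) (U^[i] (f k₀)) - Jk R U f k (U^[i] (f k₀)) with hg
  rw [Step_norm_sq]
  have e1 := Jk_expand S k₀ (k + 1) i (Or.inl ⟨by omega, hi⟩)
  have e2 := Jk_expand S k₀ k i (Or.inl ⟨hk, hi⟩)
  have e3 : (g : Ci → ℂ) =ᵐ[haar] fun x => (Jk R U f (k + 1) (U^[i] (f k₀)) : Ci → ℂ) x -
      (Jk R U f k (U^[i] (f k₀)) : Ci → ℂ) x := by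
    rw [hg]
    exact Lp.coeFn_sub _ _
  have key : ∀ᵐ x ∂haar, ‖(cut t g : Ci → ℂ) x‖ ^ 2 =
      (Th t).indicator (fun x => R.rho k₀ k x * (‖R.p k x‖ - 1) ^ 2) x := by
    filter_upwards [cut_coe t g, e1, e2, e3] with x h0 h1 h2 h3
    rw [h0, h3, h1, h2]
    by_cases hx : x ∈ Th t
    · rw [Set.indicator_of_mem hx, Set.indicator_of_mem hx, one_mul,
        Finset.prod_Ico_succ_top hk]
      have h4 : fourier (i : ℤ) x * ((∏ j ∈ Finset.Ico k₀ k, R.p j x) * R.p k x) * R.v (k + 1) x -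
          fourier (i : ℤ) x * (∏ j ∈ Finset.Ico k₀ k, R.p j x) * R.v k x =
          fourier (i : ℤ) x * (∏ j ∈ Finset.Ico k₀ k, R.p j x) *
            (((‖R.p k x‖ - 1 : ℝ) : ℂ) * R.v k x) := by
        have h5 := p_mul_v_succ R k x
        push_cast
        rw [sub_mul, ← h5]
        ring
      rw [h4, norm_mul, norm_mul, norm_mul, norm_v, mul_one, fourier_apply, Circle.norm_coe,
        one_mul, norm_prod, Complex.norm_real, mul_pow, ← Finset.prod_pow, Real.norm_eq_abs,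
        sq_abs]
      rfl
    · rw [Set.indicator_of_notMem hx, Set.indicator_of_notMem hx, zero_mul, norm_zero]
      norm_num
  rw [integral_congr_ae key, integral_indicator (measurableSet_Th t)]
  have hc : Continuous fun x => ‖R.p k x‖ := (R.p k).continuous.norm
  have i1 : Integrable (fun x => R.rho k₀ k x * (‖R.p k x‖ - 1) ^ 2) (haar.restrict (Th t)) := by
    have h1 : Continuous fun x => R.rho k₀ k x * (‖R.p k x‖ - 1) ^ 2 :=
      (Step_cont_rho R k₀ k).mul ((hc.sub continuous_const).pow 2)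
    exact (h1.integrable_of_hasCompactSupport (HasCompactSupport.of_compactSpace _)).restrict
  have i2 : Integrable (fun x => R.rho k₀ k x * |‖R.p k x‖ ^ 2 - 1|) (haar.restrict (Th t)) := by
    have h1 : Continuous fun x => R.rho k₀ k x * |‖R.p k x‖ ^ 2 - 1| :=
      (Step_cont_rho R k₀ k).mul ((hc.pow 2).sub continuous_const).abs
    exact (h1.integrable_of_hasCompactSupport (HasCompactSupport.of_compactSpace _)).restrict
  refine integral_mono i1 i2 fun x => ?_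
  have h0 : 0 ≤ R.rho k₀ k x := by
    unfold RO.rho
    positivity
  refine mul_le_mul_of_nonneg_left ?_ h0
  have h1 : 0 ≤ ‖R.p k x‖ := norm_nonneg _
  set a := ‖R.p k x‖
  have h2 : |a ^ 2 - 1| = |a - 1| * (a + 1) := by
    rw [show a ^ 2 - 1 = (a - 1) * (a + 1) by ring, abs_mul, abs_of_nonneg (by positivity : 0 ≤ a + 1)]
  rw [h2, ← sq_abs (a - 1), sq]
  refine mul_le_mul_of_nonneg_left ?_ (abs_nonneg _)
  rw [abs_le]
  constructor <;> linarith

end Vale.Agent.P130H
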